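import Vale.Agent.P221.H395.Fp.Main

/-!
# P221 (FP): fp-spectra which are homotopy `BP`-modules are finitely generated

`isFG_of_genMoore`, `isBPFinite_of_isFpModule`.
-/

open CategoryTheory MonoidalCategory OnePoint Limits Pretriangulated MonObj
open Vale.Agent.P251.St Vale.Agent.P251.St.SHCat Vale.Agent.P257.St Vale.Agent.P251.T
  Vale.Agent.P251.M Vale.Agent.P251.S Vale.Agent.P257.H702 Vale.Agent.P221.St
open Vale.Agent.P251.M.EvenSpheres

set_option linter.unusedSectionVars false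

open DirectSum

noncomputable section

namespace Vale.Agent.P221.H395.Fp

variable {T : SHCat} {S : Susp T} {R : RingSp T} {p : ℕ}

/-- the module structure -/
def modOf {X : T.C} {a : Hom (ten R.obj X) X} (ha : IsAct a) : ModStr R.obj X where
  act := a
  one_act := by
    have h1 : (λ_ X).inv ≫ η[R.obj] ▷ X ≫ a = 𝟙 X := ha.1
    rw [← cancel_epi (λ_ X).inv, h1, Iso.inv_hom_id]
  mul_act := ha.2

/-- components of a product -/
theorem cM_smul {N : T.C} (M : ModStr R.obj N) {m : ℤ} (a : (stdEven T.C).S m ⟶ R.obj)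
    (u : ⨁ k, GrM M k) (k : ℤ) :
    cM M (m + k) ((HRing.of (stdEven T.C) R.obj m a) • u) = gsmul M rfl a (cM M k u) := by
  have h1 := (homg_mulH M a).pr k u
  rw [mulH_apply, mulH_apply, ← ofM_cM, ← ofM_cM, of_smul_ofM M rfl] at h1
  exact DirectSum.of_injective (β := GrM M) (m + k) h1

theorem Span.mono {φ : GHom S p R} {n : ℕ} {X : T.C} {a : Hom (ten R.obj X) X}
    {Y Y' : Set (Σ k : ℤ, Hom (sphere T k) X)} (h : Y ⊆ Y') {k : ℤ} {z : Hom (sphere T k) X}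
    (hz : Span φ n a Y k z) : Span φ n a Y' k z := by
  induction hz with
  | base hy => exact Span.base (h hy)
  | zero k => exact Span.zero k
  | sub _ _ h1 h2 => exact Span.sub h1 h2
  | mul e hj hn he _ ih => exact Span.mul e hj hn he ih

theorem Span.neg {φ : GHom S p R} {n : ℕ} {X : T.C} {a : Hom (ten R.obj X) X}
    {Y : Set (Σ k : ℤ, Hom (sphere T k) X)} {k : ℤ} {z : Hom (sphere T k) X}
    (hz : Span φ n a Y k z) : Span φ n a Y k (-z) := by
  have h1 := Span.sub (Span.zero k) hz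
  rwa [zero_sub] at h1

theorem Span.add {φ : GHom S p R} {n : ℕ} {X : T.C} {a : Hom (ten R.obj X) X}
    {Y : Set (Σ k : ℤ, Hom (sphere T k) X)} {k : ℤ} {z z' : Hom (sphere T k) X}
    (hz : Span φ n a Y k z) (hz' : Span φ n a Y k z') : Span φ n a Y k (z + z') := by
  have h1 := Span.sub hz (Span.neg hz')
  rwa [sub_neg_eq_add] at h1

section part

variable {X P : T.C} [IsInv P] {t : ℤ}
  (c : ∀ k : ℤ, (stdEven T.C).S k ≅ (𝟙_ T.C)⟦(2 * k - t : ℤ)⟧ ⊗ P)

include c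

/-- finite homotopy groups -/
theorem fg_of_finite (M : ModStr R.obj X) {V : T.C} (h : TotallyFinite (ten X V))
    (s : Set (HRing (stdEven T.C) R.obj)) :
    (⊤ : Submodule (A s) (⨁ k, GrM ((M.tensorRight P).tensorRight V) k)).FG := by
  classical
  obtain ⟨hfin, B, hB⟩ := h
  have hP := isEq_tensorRight P
  let e : (X ⊗ V) ⊗ P ≅ (X ⊗ P) ⊗ V :=
    α_ _ _ _ ≪≫ whiskerLeftIso X (β_ V P) ≪≫ (α_ _ _ _).symm
  let ψ : ∀ k : ℤ, ((𝟙_ T.C)⟦(2 * k - t : ℤ)⟧ ⟶ X ⊗ V) → ((stdEven T.C).S k ⟶ (X ⊗ P) ⊗ V) :=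
    fun k z => (c k).hom ≫ z ▷ P ≫ e.hom
  have hψ : ∀ k, Function.Surjective (ψ k) := by
    intro k y
    obtain ⟨z, hz⟩ := (tensorRight P).map_surjective ((c k).inv ≫ y ≫ e.inv)
    refine ⟨z, ?_⟩
    change z ▷ P = _ at hz
    change (c k).hom ≫ z ▷ P ≫ e.hom = y
    rw [hz]
    simp
  have hfin' : ∀ k : ℤ, Finite ((stdEven T.C).S k ⟶ (X ⊗ P) ⊗ V) := fun k =>
    have := hfin (2 * k - t)
    Finite.of_surjective (ψ k) (hψ k)
  have hz : ∀ k : ℤ, |B| + |t| < |k| → ∀ y : (stdEven T.C).S k ⟶ (X ⊗ P) ⊗ V, y = 0 := by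
    intro k hk y
    obtain ⟨z, rfl⟩ := hψ k y
    have h1 : z = 0 := by
      refine hB (2 * k - t) ?_ z
      have h2 : |2 * k| ≤ |2 * k - t| + |t| := by
        have := abs_add_le (2 * k - t) t
        rwa [sub_add_cancel] at this
      rw [abs_mul, abs_two] at h2
      have h3 := le_abs_self B
      have h4 := abs_nonneg t
      have h5 := abs_nonneg k
      omega
    change (c k).hom ≫ z ▷ P ≫ e.hom = 0
    rw [h1, zero_whiskerRight', zero_comp, comp_zero]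
  have hW : (⋃ k ∈ Finset.Icc (-(|B| + |t|)) (|B| + |t|),
      Set.range (ofM ((M.tensorRight P).tensorRight V) k)).Finite :=
    (Finset.finite_toSet _).biUnion fun k _ => by
      have := hfin' k
      exact Set.finite_range _
  refine ⟨hW.toFinset, ?_⟩
  rw [Set.Finite.coe_toFinset, eq_top_iff]
  intro u _
  rw [← DirectSum.sum_support_of u]
  refine Submodule.sum_mem _ fun k hk => Submodule.subset_span ?_
  simp only [Set.mem_iUnion]
  refine ⟨k, ?_, ⟨_, rfl⟩⟩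
  rw [Finset.mem_Icc, ← abs_le]
  by_contra hcon
  have h1 : u k = 0 := hz k (not_le.1 hcon) (u k)
  exact (DFinsupp.mem_support_iff.1 hk) h1

/-- the part of `π_* X` in the degrees `2 k - t` -/
theorem fg_part (hp : p.Prime) {o : Oriented S R} {φ : GHom S p R} (hφ : IsPTyp p o φ)
    {a : Hom (ten R.obj X) X} (ha : IsAct a) {n : ℕ} {V : T.C} (hV : IsGenMoore φ (n + 1) V)
    (hbd : BBd (X ⊗ P)) (hfin : TotallyFinite (ten X V)) :
    ∃ Y : Set (Σ k : ℤ, Hom (sphere T k) X), Y.Finite ∧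
      ∀ (m k : ℤ) (_ : m = 2 * k - t) (z : Hom (sphere T m) X), ∃ z' : Hom (sphere T m) X,
        Span φ n a Y m (z - zmul p z') := by
  let M : ModStr R.obj X := modOf ha
  let M' : ModStr R.obj ((X ⊗ P) ⊗ 𝟙_ T.C) := (M.tensorRight P).tensorRight (𝟙_ T.C)
  obtain ⟨q, hq, Z, hZ, hgen⟩ : ∃ (q : ℤ), (p : ℤ) ∣ q ∧ ∃ Z : Set (Σ k, GrM M' k), Z.Finite ∧
      ∀ u : ⨁ k, GrM M' k, ∃ a ∈ Submodule.span (A (vset φ 1 n)) (toM _ '' Z),
        ∃ u', u - a = q • u' := by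
    obtain ⟨-, -, -, hind⟩ := main_ind hp hφ hV
    exact hind n le_rfl (X ⊗ P) (M.tensorRight P) hbd (fg_of_finite c M hfin _)
  choose iv hiv using fun k => Phi_surjective (E := stdEven T.C) (X := X) (c k)
  let Y : Set (Σ k : ℤ, Hom (sphere T k) X) := (fun y : (Σ k, GrM M' k) =>
    (⟨2 * y.1 - t, iv y.1 y.2⟩ : Σ k : ℤ, Hom (sphere T k) X)) '' Z
  have hYfin : Y.Finite := hZ.image _
  have hΦadd : ∀ (k : ℤ) (z z' : (𝟙_ T.C)⟦(2 * k - t : ℤ)⟧ ⟶ X),
      Phi (c k) (z + z') = Phi (c k) z + Phi (c k) z' := by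
    intro k z z'
    simp only [Phi, MonoidalPreadditive.add_whiskerRight, Preadditive.add_comp,
      Preadditive.comp_add]
  have hΦ0 : ∀ k : ℤ, Phi (c k) (0 : (𝟙_ T.C)⟦(2 * k - t : ℤ)⟧ ⟶ X) = 0 := by
    intro k
    rw [Phi, zero_whiskerRight', zero_comp, comp_zero]
  let Φ : ∀ k : ℤ, ((𝟙_ T.C)⟦(2 * k - t : ℤ)⟧ ⟶ X) →+ ((stdEven T.C).S k ⟶ (X ⊗ P) ⊗ 𝟙_ T.C) :=
    fun k => { toFun := Phi (c k), map_zero' := hΦ0 k, map_add' := hΦadd k }
  have hΦinj : ∀ k, Function.Injective (Φ k) := fun k => Phi_injective (c k)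
  have hΦiv : ∀ k y, Φ k (iv k y) = y := fun k y => hiv k y
  let G : AddSubgroup (⨁ k, GrM M' k) :=
    { carrier := {u | ∀ (k : ℤ) (z : (𝟙_ T.C)⟦(2 * k - t : ℤ)⟧ ⟶ X), Φ k z = cM M' k u →
        Span φ n a Y (2 * k - t) z}
      zero_mem' := by
        intro k z hz
        rw [map_zero] at hz
        have h1 : z = 0 := hΦinj k (hz.trans (map_zero _).symm)
        rw [h1]
        exact Span.zero _
      add_mem' := by
        intro u u' hu hu' k z hz
        have h1 : z = iv k (cM M' k u) + iv k (cM M' k u') := by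
          apply hΦinj k
          rw [hz, map_add, map_add, hΦiv, hΦiv]
        rw [h1]
        exact Span.add (hu k _ (hΦiv k _)) (hu' k _ (hΦiv k _))
      neg_mem' := by
        intro u hu k z hz
        have h1 : z = -iv k (cM M' k u) := by
          apply hΦinj k
          rw [hz, map_neg, map_neg, hΦiv]
        rw [h1]
        exact Span.neg (hu k _ (hΦiv k _)) }
  have hGv : ∀ h ∈ vset φ 1 n, ∀ u ∈ G, h • u ∈ G := by
    rintro _ ⟨j, hj, rfl⟩ u hu k z hz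
    rw [Set.mem_Icc] at hj
    obtain ⟨k', rfl⟩ : ∃ k' : ℤ, k = ((p ^ j - 1 : ℕ) : ℤ) + k' :=
      ⟨k - ((p ^ j - 1 : ℕ) : ℤ), by ring⟩
    have h1 : cM M' (((p ^ j - 1 : ℕ) : ℤ) + k') (vcl φ j • u) =
        gsmul M' rfl ((isoE S (p ^ j - 1)).inv ≫ hazV φ j) (cM M' k' u) := cM_smul M' _ u k'
    obtain ⟨e, he⟩ := gsmul_Phi M (P := P) (rfl : ((p ^ j - 1 : ℕ) : ℤ) + k' = _)
      (isoE S (p ^ j - 1)) (c k') (c (((p ^ j - 1 : ℕ) : ℤ) + k'))
    have h2 := he ((isoE S (p ^ j - 1)).inv ≫ hazV φ j) (iv k' (cM M' k' u))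
    have h3 : Phi (c k') (iv k' (cM M' k' u)) = cM M' k' u := hΦiv k' _
    rw [h3, Iso.hom_inv_id_assoc] at h2
    have h4 : z = e.hom ≫ (hazV φ j ⊗ₘ iv k' (cM M' k' u)) ≫ a := by
      apply hΦinj
      rw [hz, h1]
      exact h2
    rw [h4]
    exact Span.mul e.hom hj.1 hj.2 inferInstance (hu k' _ (hΦiv k' _))
  have hGspan : ∀ u ∈ Submodule.span (A (vset φ 1 n)) (toM _ '' Z), u ∈ G := by
    have h1 : Submodule.span (A (vset φ 1 n)) (toM _ '' Z) ≤
        { G with smul_mem' := fun b u hu => closed_adjoin G hGv b.2 u hu } := by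
      rw [Submodule.span_le]
      rintro _ ⟨⟨l, y⟩, hy, rfl⟩ k z hz
      change Φ k z = cM M' k (ofM M' l y) at hz
      by_cases hlk : l = k
      · subst hlk
        have h3 : Φ l z = y := hz.trans (cM_ofM M' l y)
        have h2 : z = iv l y := hΦinj l (h3.trans (hΦiv l y).symm)
        rw [h2]
        exact Span.base ⟨⟨l, y⟩, hy, rfl⟩
      · have h3 : Φ k z = 0 := hz.trans (cM_ofM_ne M' hlk y)
        have h2 : z = 0 := hΦinj k (h3.trans (map_zero _).symm)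
        rw [h2]
        exact Span.zero _
    exact fun u hu => h1 hu
  refine ⟨Y, hYfin, ?_⟩
  rintro m k rfl z
  obtain ⟨q', rfl⟩ := hq
  obtain ⟨b, hb, u', hu'⟩ := hgen (ofM M' k (Φ k z))
  have h1 : Φ k z - cM M' k b = ((p : ℤ) * q') • cM M' k u' := by
    have h2 := congrArg (cM M' k) hu'
    rw [map_sub, cM_ofM, map_zsmul] at h2
    exact h2
  refine ⟨q' • iv k (cM M' k u'), hGspan b hb k _ ?_⟩
  change Φ k (z - (p : ℤ) • (q' • iv k (cM M' k u'))) = cM M' k b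
  rw [map_sub, map_zsmul, map_zsmul, hΦiv, ← mul_smul, ← h1, sub_sub_cancel]

end part

/-- `S^1` is invertible -/
theorem isInv_S1 : IsInv ((𝟙_ T.C)⟦(1 : ℤ)⟧) :=
  IsInv.of_inverse (L' := (𝟙_ T.C)⟦(-1 : ℤ)⟧) (β_ _ _ ≪≫ negOne)

/-- **fp-spectra which are homotopy modules over `BP` are finitely generated** -/
theorem isFG_of_genMoore (hp : p.Prime) {o : Oriented S R} {φ : GHom S p R} (hφ : IsPTyp p o φ)
    {X : T.C} {a : Hom (ten R.obj X) X} (ha : IsAct a) (hbd : BoundedBelow X) {n : ℕ} {V : T.C}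
    (hV : IsGenMoore φ (n + 1) V) (hfin : TotallyFinite (ten X V)) : IsFG φ n a := by
  have hX : BBd X := hbd
  obtain ⟨Y0, hY0, h0⟩ := fg_part (P := 𝟙_ T.C) (t := 0)
    (fun k => (stdEven T.C).sphIso (Iso.refl _) k ≪≫
      eqToIso (congrArg (fun m : ℤ => (𝟙_ T.C)⟦m⟧) (sub_zero (2 * k)).symm) ≪≫ (ρ_ _).symm)
    hp hφ ha hV (hX.of_iso (ρ_ X).symm) hfin
  have := isInv_S1 (T := T)
  obtain ⟨Y1, hY1, h1⟩ := fg_part (P := (𝟙_ T.C)⟦(1 : ℤ)⟧) (t := 1)
    (fun k => (stdEven T.C).sphIso (Iso.refl _) k ≪≫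
      (shiftFunctorAdd' T.C (2 * k - 1) 1 (2 * k) (by ring)).app (𝟙_ T.C) ≪≫
      (TensorTriangulated.e ((𝟙_ T.C)⟦(2 * k - 1 : ℤ)⟧)).symm) hp hφ ha hV
    ((hX.shift 1).of_iso (TensorTriangulated.e X).symm) hfin
  refine ⟨Y0 ∪ Y1, hY0.union hY1, fun m z => ?_⟩
  rcases Int.even_or_odd' m with ⟨k, hk | hk⟩
  · obtain ⟨z', hz'⟩ := h0 m k (by omega) z
    exact ⟨z', Span.mono Set.subset_union_left hz'⟩
  · obtain ⟨z', hz'⟩ := h1 m (k + 1) (by omega) z
    exact ⟨z', Span.mono Set.subset_union_right hz'⟩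

theorem isBPFinite_of_isFpModule (hp : p.Prime) {n : ℕ} {X : T.C} (h : IsFpModule S p n X) :
    IsBPFinite S p n X := by
  obtain ⟨hc, hbd, P, o, φ, a, V, hφ, ha, hV, hfin⟩ := h
  exact ⟨hc, P, o, φ, a, hφ, ha, isFG_of_genMoore hp hφ.typ ha hbd hV hfin⟩

end Vale.Agent.P221.H395.Fp
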