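import Mathlib.Algebra.DirectSum.Module
import Mathlib.RingTheory.FiniteType
import Mathlib.RingTheory.Noetherian.Basic

/-!
# P221 (FP): the algebra of the descending induction

`M = ⨁ G k` is a graded group with an action of a commutative ring `H`; `A s` is the subring
generated by a set `s` of elements of `H` which act homogeneously.

* `homog_span` : the `A s`-submodule generated by homogeneous elements is homogeneous;
* `exists_gen` : if `g : M ⟶ M'` is linear and `M'` is finitely generated over `A s`, `s` finite,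
  there are finitely many homogeneous elements which generate `M` modulo `ker g`;
* `nak` : if `f` is homogeneous of positive degree, `M` is generated by finitely many elements over
  `A s` modulo the image of `f`, and `(f - v ^ i) ^ N = 0`, then `M` is finitely generated over
  `A (insert v s)`.
-/

open DirectSum

namespace Vale.Agent.P221.H395.Fp

universe u v

variable {H : Type u} [CommRing H] {G : ℤ → Type v} [∀ k, AddCommGroup (G k)]
  [Module H (⨁ k, G k)]

/-- the projection to degree `k` -/
def pr (G : ℤ → Type v) [∀ k, AddCommGroup (G k)] (k : ℤ) : (⨁ k, G k) →+ ⨁ k, G k :=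
  (DirectSum.of G k).comp (DFinsupp.evalAddMonoidHom k)

theorem pr_apply (k : ℤ) (u : ⨁ k, G k) : pr G k u = DirectSum.of G k (u k) := rfl

theorem pr_of_same (k : ℤ) (y : G k) : pr G k (DirectSum.of G k y) = DirectSum.of G k y := by
  rw [pr_apply, DirectSum.of_eq_same]

theorem pr_of_ne {k l : ℤ} (h : l ≠ k) (y : G l) : pr G k (DirectSum.of G l y) = 0 := by
  rw [pr_apply, DirectSum.of_eq_of_ne _ _ _ (Ne.symm h), map_zero]

theorem sum_pr (u : ⨁ k, G k) : ∃ t : Finset ℤ, u = ∑ k ∈ t, pr G k u := by
  classical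
  refine ⟨DFinsupp.support u, ?_⟩
  conv_lhs => rw [← DirectSum.sum_support_of u]
  rfl

/-- `f` is homogeneous of degree `e` -/
def Homg (f : (⨁ k, G k) →+ ⨁ k, G k) (e : ℤ) : Prop :=
  ∀ (k : ℤ) (y : G k), ∃ z : G (e + k), f (DirectSum.of G k y) = DirectSum.of G (e + k) z

theorem Homg.pr {f : (⨁ k, G k) →+ ⨁ k, G k} {e : ℤ} (hf : Homg f e) (k : ℤ) (u : ⨁ k, G k) :
    pr G (e + k) (f u) = f (pr G k u) := by
  induction u using DirectSum.induction_on with
  | zero => simp
  | of l y =>
    obtain ⟨z, hz⟩ := hf l y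
    by_cases h : l = k
    · subst h
      rw [pr_of_same, hz, pr_of_same]
    · rw [pr_of_ne h, hz, pr_of_ne (fun h' => h (by omega)), map_zero]
  | add x y hx hy => rw [map_add, map_add, hx, hy, map_add, map_add]

/-- multiplication by an element of `H` -/
def mulH (G : ℤ → Type v) [∀ k, AddCommGroup (G k)] [Module H (⨁ k, G k)] (h : H) :
    (⨁ k, G k) →+ ⨁ k, G k :=
  DistribSMul.toAddMonoidHom (⨁ k, G k) h

theorem mulH_apply (h : H) (u : ⨁ k, G k) : mulH G h u = h • u := rfl

/-- the subring generated by `s` -/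
abbrev A (s : Set H) : Subalgebra ℤ H := Algebra.adjoin ℤ s

theorem closed_adjoin {M : Type v} [AddCommGroup M] [Module H M] {s : Set H} (S : AddSubgroup M)
    (hs : ∀ h ∈ s, ∀ u ∈ S, h • u ∈ S) {a : H} (ha : a ∈ A s) : ∀ u ∈ S, a • u ∈ S := by
  induction ha using Algebra.adjoin_induction with
  | mem x hx => exact hs x hx
  | algebraMap r =>
    intro u hu
    rw [algebraMap_int_eq, eq_intCast, Int.cast_smul_eq_zsmul]
    exact S.zsmul_mem hu r
  | add x y _ _ hx hy =>
    intro u hu
    rw [add_smul]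
    exact S.add_mem (hx u hu) (hy u hu)
  | mul x y _ _ hx hy =>
    intro u hu
    rw [mul_smul]
    exact hx _ (hy u hu)

/-- the submodule generated by homogeneous elements is homogeneous -/
theorem homog_span {s : Set H} (hs : ∀ h ∈ s, ∃ e, Homg (mulH G h) e) {Z : Set (⨁ k, G k)}
    (hZ : ∀ z ∈ Z, ∃ (k : ℤ) (y : G k), z = DirectSum.of G k y) (k : ℤ) {u : ⨁ k, G k}
    (hu : u ∈ Submodule.span (A s) Z) : pr G k u ∈ Submodule.span (A s) Z := by
  let S : AddSubgroup (⨁ k, G k) :=
    { carrier := {u | ∀ k, pr G k u ∈ Submodule.span (A s) Z}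
      zero_mem' := fun k => by rw [map_zero]; exact Submodule.zero_mem _
      add_mem' := fun {x y} hx hy k => by rw [map_add]; exact Submodule.add_mem _ (hx k) (hy k)
      neg_mem' := fun {x} hx k => by rw [map_neg]; exact Submodule.neg_mem _ (hx k) }
  have h1 : ∀ h ∈ s, ∀ u ∈ S, h • u ∈ S := by
    intro h hh u hu k
    obtain ⟨e, he⟩ := hs h hh
    have h2 := he.pr (k - e) u
    rw [show e + (k - e) = k by ring, mulH_apply, mulH_apply] at h2
    rw [h2]
    exact Submodule.smul_mem _ (⟨h, Algebra.subset_adjoin hh⟩ : A s) (hu (k - e))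
  have h3 : Submodule.span (A s) Z ≤
      { S with smul_mem' := fun a u hu => closed_adjoin S h1 a.2 u hu } := by
    rw [Submodule.span_le]
    intro z hz l
    obtain ⟨m, y, rfl⟩ := hZ z hz
    by_cases h : m = l
    · subst h
      rw [pr_of_same]
      exact Submodule.subset_span hz
    · rw [pr_of_ne h]
      exact Submodule.zero_mem _
  exact h3 hu k

/-- homogeneous elements -/
def toM (G : ℤ → Type v) [∀ k, AddCommGroup (G k)] (y : Σ k, G k) : ⨁ k, G k :=
  DirectSum.of G y.1 y.2

/-- finitely many homogeneous elements whose span contains a given finite set -/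
theorem exists_homog {s : Set H} {Y : Set (⨁ k, G k)} (hY : Y.Finite) :
    ∃ Z : Set (Σ k, G k), Z.Finite ∧
      Submodule.span (A s) Y ≤ Submodule.span (A s) (toM G '' Z) := by
  classical
  refine ⟨⋃ y ∈ Y, ((fun k => ⟨k, y k⟩ : ℤ → Σ k, G k) '' (DFinsupp.support y : Finset ℤ)), ?_, ?_⟩
  · exact hY.biUnion fun y _ => (Finset.finite_toSet _).image _
  · rw [Submodule.span_le]
    intro y hy
    rw [← DirectSum.sum_support_of y]
    refine Submodule.sum_mem _ fun k hk => Submodule.subset_span ?_
    refine ⟨⟨k, y k⟩, ?_, rfl⟩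
    simp only [Set.mem_iUnion]
    exact ⟨y, hy, k, hk, rfl⟩

/-- if `g : M ⟶ M'` is linear and `M'` is finitely generated, then `M` is finitely generated modulo
the kernel of `g` -/
theorem exists_gen {M' : Type v} [AddCommGroup M'] [Module H M'] {s : Set H} (hs : s.Finite)
    (g : (⨁ k, G k) →ₗ[H] M') (hM' : (⊤ : Submodule (A s) M').FG) :
    ∃ Z : Set (Σ k, G k), Z.Finite ∧
      ∀ u : ⨁ k, G k, ∃ a ∈ Submodule.span (A s) (toM G '' Z), g (u - a) = 0 := by
  have hN : IsNoetherianRing (A s) :=
    isNoetherianRing_of_fg (Subalgebra.fg_def.2 ⟨s, hs, rfl⟩)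
  have hfin : Module.Finite (A s) M' := ⟨hM'⟩
  have h1 : (LinearMap.range (g.restrictScalars (A s))).FG := IsNoetherian.noetherian _
  obtain ⟨t, ht⟩ := h1
  have h2 : ∀ x : t, ∃ y : ⨁ k, G k, g y = x := by
    intro x
    have h3 : (x : M') ∈ LinearMap.range (g.restrictScalars (A s)) := by
      rw [← ht]
      exact Submodule.subset_span x.2
    obtain ⟨y, hy⟩ := h3
    exact ⟨y, hy⟩
  choose y hy using h2
  obtain ⟨Z, hZ, hYZ⟩ := exists_homog (s := s) (Set.finite_range y)
  refine ⟨Z, hZ, fun u => ?_⟩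
  have h4 : g u ∈ Submodule.map (g.restrictScalars (A s)) (Submodule.span (A s) (Set.range y)) := by
    rw [Submodule.map_span]
    have h5 : (g.restrictScalars (A s)) '' Set.range y = t := by
      ext x
      constructor
      · rintro ⟨_, ⟨x, rfl⟩, rfl⟩
        change g (y x) ∈ _
        rw [hy]
        exact x.2
      · intro hx
        exact ⟨y ⟨x, hx⟩, ⟨_, rfl⟩, hy ⟨x, hx⟩⟩
    rw [h5, ht]
    exact ⟨u, rfl⟩
  obtain ⟨a, ha, hau⟩ := h4
  refine ⟨a, hYZ ha, ?_⟩
  change g a = g u at hau
  rw [map_sub, hau, sub_self]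

/-- graded Nakayama lemma with a nilpotent correction -/
theorem nak {s : Set H} (hs : ∀ h ∈ s, ∃ e, Homg (mulH G h) e) {v : H} {e : ℤ}
    (hv : Homg (mulH G v) e) {i : ℕ} {f : Module.End H (⨁ k, G k)} {d : ℤ} (hd : 0 < d)
    (hf : Homg f.toAddMonoidHom d)
    (hvf : Homg (mulH G (v ^ i)) d) {N : ℕ} (hN : (f - v ^ i • (1 : Module.End H (⨁ k, G k))) ^ N = 0)
    {K : ℤ} (hK : ∀ k < K, ∀ y : G k, y = 0) {Z : Set (Σ k, G k)} (hZ : Z.Finite)
    (hgen : ∀ u : ⨁ k, G k, ∃ a ∈ Submodule.span (A s) (toM G '' Z), ∃ u', u - a = f u') :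
    (⊤ : Submodule (A (insert v s)) (⨁ k, G k)).FG := by
  set D : Module.End H (⨁ k, G k) := f - v ^ i • (1 : Module.End H (⨁ k, G k)) with hD
  have hDh : Homg D.toAddMonoidHom d := by
    intro k y
    obtain ⟨z, hz⟩ := hf k y
    obtain ⟨z', hz'⟩ := hvf k y
    refine ⟨z - z', ?_⟩
    rw [map_sub, ← hz, ← hz']
    rfl
  have hDb : ∀ (b : ℕ) (k : ℤ) (y : G k), ∃ (l : ℤ) (z : G l),
      (D ^ b) (DirectSum.of G k y) = DirectSum.of G l z := by
    intro b
    induction b with
    | zero => exact fun k y => ⟨k, y, rfl⟩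
    | succ b ih =>
      intro k y
      obtain ⟨l, z, hz⟩ := ih k y
      obtain ⟨z', hz'⟩ := hDh l z
      refine ⟨d + l, z', ?_⟩
      rw [pow_succ', Module.End.mul_apply, hz]
      exact hz'
  -- the submodule
  let W : Set (⨁ k, G k) := ⋃ b ∈ Finset.range N, (D ^ b) '' (toM G '' Z)
  have hWfin : W.Finite := (Finset.finite_toSet _).biUnion fun b _ => (hZ.image _).image _
  have hWh : ∀ z ∈ W, ∃ (k : ℤ) (y : G k), z = DirectSum.of G k y := by
    intro z hz
    simp only [W, Set.mem_iUnion] at hz
    obtain ⟨b, -, _, ⟨y, -, rfl⟩, rfl⟩ := hz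
    obtain ⟨l, z, hz⟩ := hDb b y.1 y.2
    exact ⟨l, z, hz⟩
  have hs' : ∀ h ∈ insert v s, ∃ e, Homg (mulH G h) e := by
    intro h hh
    rcases hh with rfl | hh
    · exact ⟨e, hv⟩
    · exact hs h hh
  set P : Submodule (A (insert v s)) (⨁ k, G k) := Submodule.span _ W with hP
  -- closed under `D`
  have hPD : ∀ u ∈ P, D u ∈ P := by
    have h1 : P ≤ P.comap (D.restrictScalars (A (insert v s))) := by
      conv_lhs => rw [hP]
      rw [Submodule.span_le]
      intro z hz
      simp only [W, Set.mem_iUnion] at hz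
      obtain ⟨b, hb, y, hy, rfl⟩ := hz
      change D ((D ^ b) y) ∈ P
      rw [← Module.End.mul_apply, ← pow_succ']
      rw [Finset.mem_range] at hb
      rcases (Nat.succ_le_of_lt hb).lt_or_eq with hb' | hb'
      · refine Submodule.subset_span ?_
        simp only [W, Set.mem_iUnion]
        exact ⟨b + 1, Finset.mem_range.2 hb', y, hy, rfl⟩
      · rw [show b + 1 = N from hb', hN]
        exact Submodule.zero_mem _
    exact h1
  have hv' : v ∈ A (insert v s) := Algebra.subset_adjoin (Set.mem_insert v s)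
  have hPf : ∀ u ∈ P, f u ∈ P := by
    intro u hu
    have h1 : f u = D u + (v ^ i) • u := by
      rw [hD, LinearMap.sub_apply, LinearMap.smul_apply, Module.End.one_apply, sub_add_cancel]
    rw [h1]
    refine P.add_mem (hPD u hu) ?_
    exact P.smul_mem (⟨v ^ i, Subalgebra.pow_mem _ hv' i⟩ : A (insert v s)) hu
  have hss : ∀ a : ⨁ k, G k, a ∈ Submodule.span (A s) (toM G '' Z) → a ∈ P := by
    rcases Nat.eq_zero_or_pos N with rfl | hNpos
    · intro a _
      have h1 : (1 : Module.End H (⨁ k, G k)) = 0 := hN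
      have h2 : a = 0 := by
        have := congrArg (fun g : Module.End H (⨁ k, G k) => g a) h1
        exact this
      rw [h2]
      exact P.zero_mem
    · have h1 : Submodule.span (A s) (toM G '' Z) ≤
          { P.toAddSubgroup with
            smul_mem' := fun a u hu =>
              P.smul_mem (⟨a.1, Algebra.adjoin_mono (Set.subset_insert v s) a.2⟩ :
                A (insert v s)) hu } := by
        rw [Submodule.span_le]
        intro z hz
        refine Submodule.subset_span ?_
        simp only [W, Set.mem_iUnion]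
        exact ⟨0, Finset.mem_range.2 hNpos, z, hz, rfl⟩
      exact fun a ha => h1 ha
  have hhom : ∀ (k : ℤ) (y : G k), DirectSum.of G k y ∈ P := by
    have h1 : ∀ (m : ℕ) (k : ℤ), k < K + m → ∀ y : G k, DirectSum.of G k y ∈ P := by
      intro m
      induction m with
      | zero =>
        intro k hk y
        rw [hK k (by simpa using hk) y, map_zero]
        exact P.zero_mem
      | succ m ih =>
        intro k hk y
        obtain ⟨a, ha, u', hu'⟩ := hgen (DirectSum.of G k y)
        have h2 : DirectSum.of G k y = pr G k a + f (pr G (k - d) u') := by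
          have h3 := hf.pr (k - d) u'
          rw [show d + (k - d) = k by ring] at h3
          change pr G k (f u') = f (pr G (k - d) u') at h3
          rw [← h3, ← map_add, ← hu', add_sub_cancel, pr_of_same]
        rw [h2]
        refine P.add_mem (homog_span hs' hWh k (hss a ha)) (hPf _ ?_)
        exact ih (k - d) (by push_cast at hk; omega) _
    intro k y
    obtain ⟨m, hm⟩ : ∃ m : ℕ, k < K + m := ⟨(k - K + 1).toNat, by omega⟩
    exact h1 m k hm y
  refine ⟨hWfin.toFinset, ?_⟩
  rw [Set.Finite.coe_toFinset, eq_top_iff]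
  intro u _
  change u ∈ P
  classical
  rw [← DirectSum.sum_support_of u]
  exact Submodule.sum_mem _ fun k _ => hhom k _

end Vale.Agent.P221.H395.Fp
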