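import Vale.Agent.P221.H395.Fp.Op

/-!
# P221 (FP): bounded below objects, and the comparison of `N` with `N ⊗ P ⊗ 𝟙`
-/

open CategoryTheory MonoidalCategory Limits Pretriangulated MonObj
open Vale.Agent.P251.T Vale.Agent.P251.M Vale.Agent.P251.S
open Vale.Agent.P251.M.EvenSpheres

universe v u

set_option linter.unusedSectionVars false

namespace Vale.Agent.P221.H395.Fp

section tri

variable {T : Type u} [Category.{v} T] [Preadditive T] [HasZeroObject T]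
    [HasShift T ℤ] [∀ n : ℤ, (shiftFunctor T n).Additive] [Pretriangulated T]
    [MonoidalCategory T] [SymmetricCategory T] [TensorTriangulated T]

/-- `π_k Y = 0` for small `k` -/
def BBd (Y : T) : Prop := ∃ K : ℤ, ∀ k < K, ∀ y : (𝟙_ T)⟦k⟧ ⟶ Y, y = 0

theorem BBd.of_iso {Y Y' : T} (h : BBd Y) (e : Y ≅ Y') : BBd Y' := by
  obtain ⟨K, hK⟩ := h
  refine ⟨K, fun k hk y => ?_⟩
  rw [← cancel_mono e.inv, zero_comp]
  exact hK k hk _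

theorem BBd.shift {Y : T} (h : BBd Y) (n : ℤ) : BBd (Y⟦n⟧) := by
  obtain ⟨K, hK⟩ := h
  refine ⟨K + n, fun k hk y => ?_⟩
  apply (shiftFunctor T (-n)).map_injective
  have e1 : (𝟙_ T)⟦(k + (-n) : ℤ)⟧ ≅ ((𝟙_ T)⟦k⟧)⟦(-n : ℤ)⟧ := (shiftFunctorAdd T k (-n)).app _
  have e2 : (Y⟦n⟧)⟦(-n : ℤ)⟧ ≅ Y := shiftShiftNeg Y n
  have h1 := hK (k + (-n)) (by omega) (e1.hom ≫ y⟦(-n : ℤ)⟧' ≫ e2.hom)
  rw [Functor.map_zero, ← cancel_epi e1.hom, ← cancel_mono e2.hom, Category.assoc, h1, comp_zero,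
    zero_comp]

theorem BBd.ext₃ {X Y Z : T} {f : X ⟶ Y} {g : Y ⟶ Z} {h : Z ⟶ X⟦(1 : ℤ)⟧}
    (hT : Triangle.mk f g h ∈ distTriang T) (hX : BBd X) (hY : BBd Y) : BBd Z := by
  obtain ⟨K, hK⟩ := hX.shift 1
  obtain ⟨K', hK'⟩ := hY
  refine ⟨min K K', fun k hk z => ?_⟩
  obtain ⟨y, hy⟩ := Triangle.coyoneda_exact₃ _ hT z (hK k (lt_of_lt_of_le hk (min_le_left _ _)) _)
  change z = y ≫ g at hy
  have h1 : y = 0 := hK' k (lt_of_lt_of_le hk (min_le_right _ _)) y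
  rw [hy, h1]
  exact zero_comp

theorem BBd.tensS {N V : T} (h : BBd (N ⊗ V)) (d : ℤ) : BBd (N ⊗ (V ⊗ (stdEven T).S d)) :=
  ((h.shift (2 * d)).of_iso (((stdEven T).shiftNat (Iso.refl _) d).app (N ⊗ V)).symm).of_iso
    (α_ _ _ _)

theorem BBd.whisker {N X Y Z : T} {f : X ⟶ Y} {g : Y ⟶ Z} {h : Z ⟶ X⟦(1 : ℤ)⟧}
    (hT : Triangle.mk f g h ∈ distTriang T) (hX : BBd (N ⊗ X)) (hY : BBd (N ⊗ Y)) :
    BBd (N ⊗ Z) :=
  BBd.ext₃ (dist_whiskerLeft N hT) hX hY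

/-- the even groups -/
theorem BBd.even {Y : T} (h : BBd Y) :
    ∃ K : ℤ, ∀ k < K, ∀ y : (stdEven T).S k ⟶ Y, y = 0 := by
  obtain ⟨K, hK⟩ := h
  refine ⟨min K 0, fun k hk y => ?_⟩
  have e : (stdEven T).S k ≅ (𝟙_ T)⟦(2 * k : ℤ)⟧ := (stdEven T).sphIso (Iso.refl _) k
  rw [← cancel_epi e.inv, comp_zero]
  refine hK (2 * k) ?_ _
  have h1 := lt_of_lt_of_le hk (min_le_left _ _)
  have h2 := lt_of_lt_of_le hk (min_le_right _ _)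
  omega

end tri

section Phi

variable {T : Type u} [Category.{v} T] [MonoidalCategory T] [SymmetricCategory T]
  {E : EvenSpheres T}

theorem isEq_tensorRight (P : T) [IsInv P] : (tensorRight P).IsEquivalence :=
  Functor.isEquivalence_of_iso
    (NatIso.ofComponents (fun X => β_ P X) : tensorLeft P ≅ tensorRight P)

/-- `π_{2k} (X ⊗ P ⊗ 𝟙) = [Q, X]` if `S^{2k} ≅ Q ⊗ P` -/
noncomputable def Phi {X P Q : T} {k : ℤ} (c : E.S k ≅ Q ⊗ P) (z : Q ⟶ X) :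
    E.S k ⟶ (X ⊗ P) ⊗ 𝟙_ T :=
  c.hom ≫ (z ▷ P) ≫ (ρ_ (X ⊗ P)).inv

theorem Phi_injective {X P Q : T} [IsInv P] {k : ℤ} (c : E.S k ≅ Q ⊗ P) :
    Function.Injective (Phi (X := X) c) := by
  have := isEq_tensorRight P
  intro z z' h
  apply (tensorRight P).map_injective
  change z ▷ P = z' ▷ P
  rw [Phi, Phi, cancel_epi] at h
  exact (cancel_mono _).1 h

theorem Phi_surjective {X P Q : T} [IsInv P] {k : ℤ} (c : E.S k ≅ Q ⊗ P) :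
    Function.Surjective (Phi (X := X) c) := by
  have := isEq_tensorRight P
  intro y
  obtain ⟨z, hz⟩ := (tensorRight P).map_surjective (c.inv ≫ y ≫ (ρ_ (X ⊗ P)).hom)
  refine ⟨z, ?_⟩
  change z ▷ P = _ at hz
  rw [Phi, hz]
  simp

theorem gsmul_Phi {R X : T} [MonObj R] (M : ModStr R X) {P Q Q' S' : T} [IsInv P] {d k l : ℤ}
    (h : d + k = l) (s : S' ≅ E.S d) (c : E.S k ≅ Q ⊗ P) (c' : E.S l ≅ Q' ⊗ P) :
    ∃ e : Q' ≅ S' ⊗ Q, ∀ (v : E.S d ⟶ R) (z : Q ⟶ X),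
      gsmul ((M.tensorRight P).tensorRight (𝟙_ T)) h v (Phi c z) =
        Phi c' (e.hom ≫ ((s.hom ≫ v) ⊗ₘ z) ≫ M.act) := by
  have := isEq_tensorRight P
  let θ : Q' ⊗ P ≅ (S' ⊗ Q) ⊗ P :=
    c'.symm ≪≫ (E.mu d k l h).symm ≪≫ (s.symm ⊗ᵢ c) ≪≫ (α_ S' Q P).symm
  obtain ⟨e, he⟩ : ∃ e : Q' ≅ S' ⊗ Q, e.hom ▷ P = θ.hom :=
    ⟨(tensorRight P).preimageIso θ, (tensorRight P).map_preimage θ.hom⟩
  refine ⟨e, fun v z => ?_⟩
  have h1 : (v ⊗ₘ (c.hom ≫ z ▷ P ≫ (ρ_ (X ⊗ P)).inv)) =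
      (s.inv ⊗ₘ c.hom) ≫ ((s.hom ≫ v) ⊗ₘ (z ▷ P)) ≫ (R ◁ (ρ_ (X ⊗ P)).inv) := by
    rw [← id_tensorHom, tensorHom_comp_tensorHom, tensorHom_comp_tensorHom]
    simp
  have h2 : (α_ S' Q P).inv ≫ ((s.hom ≫ v) ⊗ₘ z) ▷ P = ((s.hom ≫ v) ⊗ₘ (z ▷ P)) ≫
      (α_ R X P).inv := by
    rw [← tensorHom_id, ← tensorHom_id, associator_inv_naturality]
  rw [gsmul, EvenSpheres.ext, Phi, Phi, h1]
  simp only [comp_whiskerRight, Category.assoc]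
  rw [he]
  simp only [θ, Iso.trans_hom, Iso.symm_hom, tensorIso_hom, Category.assoc,
    Iso.hom_inv_id_assoc]
  rw [reassoc_of% h2]
  congr 3
  change R ◁ (ρ_ (X ⊗ P)).inv ≫ (α_ R (X ⊗ P) (𝟙_ T)).inv ≫
      ((α_ R X P).inv ≫ (M.act ▷ P)) ▷ (𝟙_ T) = (α_ R X P).inv ≫ M.act ▷ P ≫ (ρ_ (X ⊗ P)).inv
  simp

end Phi

end Vale.Agent.P221.H395.Fp
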