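import Vale.Agent.P251.M.Kleisli
import Vale.Agent.P251.M.EvenShift
import Vale.Agent.P251.S.TelMap
import Vale.Agent.P251.S.Tens

/-!
# P221 (FP): ghosts of free modules

`FM R` is the category of free `R`-modules (`P251/M/Kleisli.lean`).

* `Gh g` : `g` is zero on homotopy groups;
* `GhP N g` : `g` is a composite of `N` ghosts (and something else);
* `GhL R N W` : composites of `N` ghosts are zero on maps from `W` (and its shifts);
* `itD` : the iterates of an operator `δ : V ⊗ S ⟶ V`, `itD_eq_zero`.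
-/

open CategoryTheory MonoidalCategory Limits Pretriangulated MonObj
open Vale.Agent.P251.T Vale.Agent.P251.M Vale.Agent.P251.S

universe v u

set_option linter.unusedSectionVars false

namespace Vale.Agent.P221.H395.Fp

section inv

variable {C : Type u} [Category.{v} C] [MonoidalCategory C] [Preadditive C]
  [MonoidalPreadditive C]

theorem zero_whiskerRight' (X Y Z : C) : (0 : X ⟶ Y) ▷ Z = 0 :=
  MonoidalPreadditive.zero_whiskerRight

/-- tensoring with an invertible object is faithful -/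
theorem eq_zero_of_whiskerRight {S S' : C} (e : S' ⊗ S ≅ 𝟙_ C) {P Q : C} (f : P ⟶ Q)
    (h : f ▷ S' = 0) : f = 0 := by
  have h1 : f = (ρ_ P).inv ≫ P ◁ e.inv ≫ (α_ P S' S).inv ≫ (f ▷ S') ▷ S ≫ (α_ Q S' S).hom ≫
      Q ◁ e.hom ≫ (ρ_ Q).hom := by
    rw [associator_naturality_left_assoc, Iso.inv_hom_id_assoc, whisker_exchange_assoc,
      whiskerLeft_inv_hom_assoc, rightUnitor_naturality, Iso.inv_hom_id_assoc]
  rw [h1, h, zero_whiskerRight']
  simp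

end inv

variable {T : Type u} [Category.{v} T] [Preadditive T] [HasZeroObject T]
    [HasShift T ℤ] [∀ n : ℤ, (shiftFunctor T n).Additive] [Pretriangulated T]
    [MonoidalCategory T] [SymmetricCategory T] [TensorTriangulated T]

section Gh

variable {R : T} [MonObj R] [IsCommMonObj R]

/-- `g` is zero on homotopy groups -/
def Gh {A B : FM R} (g : A ⟶ B) : Prop :=
  ∀ (m : ℤ) (y : (FM.free R).obj ((𝟙_ T)⟦m⟧) ⟶ A), y ≫ g = 0

/-- `g` is a composite of `N` ghosts and something else -/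
inductive GhP : ℕ → ∀ {A B : FM R}, (A ⟶ B) → Prop
  | nil {A B : FM R} (g : A ⟶ B) : GhP 0 g
  | cons {A B C : FM R} {N : ℕ} (g : A ⟶ B) (h : B ⟶ C) : Gh g → GhP N h → GhP (N + 1) (g ≫ h)

theorem GhP.comp_right {N : ℕ} {A B C : FM R} {g : A ⟶ B} (hg : GhP N g) (h : B ⟶ C) :
    GhP N (g ≫ h) := by
  induction hg with
  | nil g => exact GhP.nil _
  | cons g g' hg _ ih =>
    rw [Category.assoc]
    exact GhP.cons g _ hg (ih h)

theorem Gh.comp_left {A B C : FM R} (f : A ⟶ B) {g : B ⟶ C} (hg : Gh g) : Gh (f ≫ g) := by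
  intro m y
  rw [← Category.assoc]
  exact hg m _

theorem GhP.snoc {N : ℕ} {A B C : FM R} {g : A ⟶ B} (hg : GhP N g) {h : B ⟶ C} (hh : Gh h) :
    GhP (N + 1) (g ≫ h) := by
  induction hg with
  | nil g =>
    rw [← Category.comp_id (g ≫ h)]
    exact GhP.cons _ _ (hh.comp_left g) (GhP.nil _)
  | cons g g' hg _ ih =>
    rw [Category.assoc]
    exact GhP.cons g _ hg (ih hh)

theorem GhP.split {N M : ℕ} {A B : FM R} {g : A ⟶ B} (hg : GhP (N + M) g) :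
    ∃ (C : FM R) (g' : A ⟶ C) (g'' : C ⟶ B), g = g' ≫ g'' ∧ GhP N g' ∧ GhP M g'' := by
  induction N generalizing A with
  | zero =>
    rw [Nat.zero_add] at hg
    exact ⟨A, 𝟙 A, g, (Category.id_comp _).symm, GhP.nil _, hg⟩
  | succ N ih =>
    rw [show N + 1 + M = (N + M) + 1 by ring] at hg
    cases hg with
    | cons g h hg hh =>
      obtain ⟨C, g', g'', rfl, h1, h2⟩ := ih hh
      exact ⟨C, g ≫ g', g'', (Category.assoc _ _ _).symm, GhP.cons _ _ hg h1, h2⟩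

variable (R) in
/-- composites of `N` ghosts are zero on maps from shifts of `W` -/
def GhL (N : ℕ) (W : T) : Prop :=
  ∀ (k : ℤ) (A B : FM R) (x : (FM.free R).obj (W⟦k⟧) ⟶ A) (g : A ⟶ B), GhP N g → x ≫ g = 0

theorem GhL.of_iso {N : ℕ} {W W' : T} (h : GhL R N W) (e : W ≅ W') : GhL R N W' := by
  intro k A B x g hg
  have h1 := h k A B ((FM.free R).map (e.hom⟦k⟧') ≫ x) g hg
  rw [Category.assoc] at h1
  rw [← cancel_epi ((FM.free R).map (e.hom⟦k⟧')), h1, comp_zero]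

theorem GhL.shift {N : ℕ} {W : T} (h : GhL R N W) (n : ℤ) : GhL R N (W⟦n⟧) := by
  intro k A B x g hg
  have e : W⟦(n + k : ℤ)⟧ ≅ (W⟦n⟧)⟦k⟧ := (shiftFunctorAdd T n k).app W
  have h1 := h (n + k) A B ((FM.free R).map e.hom ≫ x) g hg
  rw [Category.assoc] at h1
  rw [← cancel_epi ((FM.free R).map e.hom), h1, comp_zero]

theorem GhL.sphere (m : ℤ) : GhL R 1 ((𝟙_ T)⟦m⟧) := by
  intro k A B x g hg
  cases hg with
  | cons g h hg hh =>
    have e : (𝟙_ T)⟦(m + k : ℤ)⟧ ≅ ((𝟙_ T)⟦m⟧)⟦k⟧ := (shiftFunctorAdd T m k).app _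
    have h1 := hg (m + k) ((FM.free R).map e.hom ≫ x)
    rw [Category.assoc] at h1
    rw [← cancel_epi ((FM.free R).map e.hom), comp_zero, ← Category.assoc x, ← Category.assoc,
      h1, zero_comp]

theorem GhL.unit : GhL R 1 (𝟙_ T) :=
  (GhL.sphere (R := R) 0).of_iso ((shiftFunctorZero T ℤ).app _)

/-- the middle term of a triangle -/
theorem GhL.ext₂ {N M : ℕ} {X Y Z : T} {f : X ⟶ Y} {g : Y ⟶ Z} {h : Z ⟶ X⟦(1 : ℤ)⟧}
    (hT : Triangle.mk f g h ∈ distTriang T) (hX : GhL R N X) (hZ : GhL R M Z) :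
    GhL R (N + M) Y := by
  intro k A B x a ha
  obtain ⟨C, a', a'', rfl, h1, h2⟩ := ha.split
  obtain ⟨w, hw⟩ := exists_dist_shift hT k
  have h3 := hX k A C ((FM.free R).map (f⟦k⟧') ≫ x) a' h1
  have h4 : f⟦k⟧' ≫ FM.Hom.hom (x ≫ a') = 0 :=
    (FM.free_map_comp_hom (f⟦k⟧') (x ≫ a')).symm.trans
      (congrArg FM.Hom.hom ((Category.assoc _ _ _).symm.trans h3))
  obtain ⟨z, hz⟩ := Triangle.yoneda_exact₂ _ hw (FM.Hom.hom (x ≫ a')) h4
  change FM.Hom.hom (x ≫ a') = g⟦k⟧' ≫ z at hz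
  let z' : (FM.free R).obj (Z⟦k⟧) ⟶ C := ⟨z⟩
  have h5 : x ≫ a' = (FM.free R).map (g⟦k⟧') ≫ z' := by
    apply FM.hom_ext
    exact hz.trans (FM.free_map_comp_hom (g⟦k⟧') z').symm
  rw [← Category.assoc, h5, Category.assoc, hZ k C B _ a'' h2, comp_zero]

/-- the third term of a triangle -/
theorem GhL.ext₃ {N M : ℕ} {X Y Z : T} {f : X ⟶ Y} {g : Y ⟶ Z} {h : Z ⟶ X⟦(1 : ℤ)⟧}
    (hT : Triangle.mk f g h ∈ distTriang T) (hX : GhL R N X) (hY : GhL R M Y) :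
    GhL R (M + N) Z :=
  GhL.ext₂ (rot_of_distTriang _ hT) hY (hX.shift 1)

theorem GhL.tensS {N : ℕ} {W : T} (h : GhL R N W) (d : ℤ) : GhL R N (W ⊗ (stdEven T).S d) :=
  (h.shift (2 * d)).of_iso (((stdEven T).shiftNat (Iso.refl _) d).app W).symm

end Gh

section ten

variable {R : T} [MonObj R] [IsCommMonObj R]

/-- `S^{2a} ⊗ S^{2b} ≅ 𝟙` if `a + b = 0` -/
noncomputable def pairS {a b : ℤ} (h : a + b = 0) :
    (stdEven T).S a ⊗ (stdEven T).S b ≅ 𝟙_ T :=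
  (stdEven T).mu a b 0 h ≪≫ (stdEven T).zero.symm

/-- ghosts are stable under suspensions -/
theorem Gh.whiskerRight {A B : FM R} {g : A ⟶ B} (hg : Gh g) (d : ℤ) :
    Gh (g ▷ (FM.free R).obj ((stdEven T).S d)) := by
  set S : FM R := (FM.free R).obj ((stdEven T).S d) with hS
  set S' : FM R := (FM.free R).obj ((stdEven T).S (-d)) with hS'
  intro m y
  have e1 : S ⊗ S' ≅ 𝟙_ (FM R) := (FM.free R).mapIso (pairS (add_neg_cancel d))
  have e2 : S' ⊗ S ≅ 𝟙_ (FM R) := (FM.free R).mapIso (pairS (neg_add_cancel d))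
  refine eq_zero_of_whiskerRight e2 _ ?_
  rw [comp_whiskerRight]
  -- the adjoint map
  have e3 : (𝟙_ T)⟦(m + 2 * (-d) : ℤ)⟧ ≅ (𝟙_ T)⟦m⟧ ⊗ (stdEven T).S (-d) :=
    (shiftFunctorAdd T m (2 * (-d))).app _ ≪≫
      (((stdEven T).shiftNat (Iso.refl _) (-d)).app ((𝟙_ T)⟦m⟧)).symm
  let y' : (FM.free R).obj ((𝟙_ T)⟦m⟧ ⊗ (stdEven T).S (-d)) ⟶ A :=
    (y ▷ S' ≫ (α_ A S S').hom ≫ A ◁ e1.hom ≫ (ρ_ A).hom :
      (FM.free R).obj ((𝟙_ T)⟦m⟧) ⊗ S' ⟶ A)
  have h1 := hg (m + 2 * (-d)) ((FM.free R).map e3.hom ≫ y')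
  rw [Category.assoc] at h1
  have h2 : y' ≫ g = 0 := by
    rw [← cancel_epi ((FM.free R).map e3.hom), comp_zero]
    exact h1
  change (y ▷ S' ≫ (α_ A S S').hom ≫ A ◁ e1.hom ≫ (ρ_ A).hom :
      (FM.free R).obj ((𝟙_ T)⟦m⟧) ⊗ S' ⟶ A) ≫ g = 0 at h2
  simp only [Category.assoc] at h2
  rw [← rightUnitor_naturality, whisker_exchange_assoc, ← associator_naturality_left_assoc] at h2
  have h3 : (y ▷ S' ≫ (g ▷ S) ▷ S') ≫ (α_ B S S').hom ≫ B ◁ e1.hom ≫ (ρ_ B).hom = 0 := by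
    rw [Category.assoc]
    exact h2
  exact (cancel_mono ((α_ B S S').hom ≫ B ◁ e1.hom ≫ (ρ_ B).hom)).1 (h3.trans zero_comp.symm)

theorem GhP.whiskerRight {N : ℕ} {A B : FM R} {g : A ⟶ B} (hg : GhP N g) (d : ℤ) :
    GhP N (g ▷ (FM.free R).obj ((stdEven T).S d)) := by
  induction hg with
  | nil g => exact GhP.nil _
  | cons g g' hg _ ih =>
    rw [comp_whiskerRight]
    exact GhP.cons _ _ (hg.whiskerRight d) ih

/-- `g ⊗ W` -/
noncomputable def wr {A B : T} (g : (FM.free R).obj A ⟶ (FM.free R).obj B) (W : T) :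
    (FM.free R).obj (A ⊗ W) ⟶ (FM.free R).obj (B ⊗ W) :=
  (g ▷ (FM.free R).obj W :
    (FM.free R).obj A ⊗ (FM.free R).obj W ⟶ (FM.free R).obj B ⊗ (FM.free R).obj W)

/-- the sources of the iterates -/
noncomputable def itO (V : T) (d : ℤ) : ℕ → T
  | 0 => V
  | N + 1 => itO V d N ⊗ (stdEven T).S d

/-- the iterates of `δ : V ⊗ S^{2d} ⟶ V` -/
noncomputable def itD {V : T} {d : ℤ}
    (δ : (FM.free R).obj (V ⊗ (stdEven T).S d) ⟶ (FM.free R).obj V) :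
    ∀ N : ℕ, (FM.free R).obj (itO V d N) ⟶ (FM.free R).obj V
  | 0 => 𝟙 _
  | N + 1 => wr (itD δ N) ((stdEven T).S d) ≫ δ

theorem itO_GhL {V : T} {N : ℕ} (h : GhL R N V) (d : ℤ) : ∀ M : ℕ, GhL R N (itO V d M)
  | 0 => h
  | M + 1 => (itO_GhL h d M).tensS d

theorem GhP_itD {V : T} {d : ℤ} {δ : (FM.free R).obj (V ⊗ (stdEven T).S d) ⟶ (FM.free R).obj V}
    (hδ : Gh δ) : ∀ N : ℕ, GhP N (itD δ N)
  | 0 => GhP.nil _
  | N + 1 => ((GhP_itD hδ N).whiskerRight d).snoc hδ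

/-- **the ghost lemma** -/
theorem itD_eq_zero {V : T} {d : ℤ}
    {δ : (FM.free R).obj (V ⊗ (stdEven T).S d) ⟶ (FM.free R).obj V} (hδ : Gh δ) {N : ℕ}
    (hV : GhL R N V) : itD δ N = 0 := by
  have e : (itO V d N)⟦(0 : ℤ)⟧ ≅ itO V d N := (shiftFunctorZero T ℤ).app _
  have h1 := itO_GhL hV d N 0 _ _ ((FM.free R).map e.hom) _ (GhP_itD hδ N)
  rw [← cancel_epi ((FM.free R).map e.hom), h1, comp_zero]

end ten

end Vale.Agent.P221.H395.Fp
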