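import Vale.Agent.P221.H395.Fp.Op

/-!
# P221 (FP): the step of the descending induction

* `exact_hmap` : exactness of the homotopy modules of `N ⊗ V ⟶ N ⊗ W ⟶ N ⊗ Z`;
* `step` : `f : V ⊗ S^{2d} ⟶ V` induces the multiplication by `v ^ i`, and `W` is its cofibre; if
  `π_{2*} (N ⊗ W)` is finitely generated over `ℤ[s]`, then `π_{2*} (N ⊗ V)` is finitely generated over
  `ℤ[v, s]`;
* `step_zero` : the same for the cofibre of `p ^ i` on the unit.
-/

open CategoryTheory MonoidalCategory Limits Pretriangulated MonObj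
open Vale.Agent.P251.T Vale.Agent.P251.M Vale.Agent.P251.S
open Vale.Agent.P251.M.EvenSpheres

universe v u

set_option linter.unusedSectionVars false

open DirectSum

namespace Vale.Agent.P221.H395.Fp

variable {T : Type u} [Category.{v} T] [Preadditive T] [HasZeroObject T]
    [HasShift T ℤ] [∀ n : ℤ, (shiftFunctor T n).Additive] [Pretriangulated T]
    [MonoidalCategory T] [SymmetricCategory T] [TensorTriangulated T]
variable {R : T} [MonObj R] [IsCommMonObj R] {N : T}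

/-- `N ◁ f` is linear -/
theorem isLinear_wL (M : ModStr R N) {V W : T} (f : V ⟶ W) :
    (M.tensorRight V).IsLinear (M.tensorRight W) (N ◁ f) := by
  rw [← tm_free M f]
  exact isLinear_tm M _

/-- exactness on homotopy -/
theorem exact_hmap (M : ModStr R N) {V W Z : T} {f : V ⟶ W} {g : W ⟶ Z}
    {h : Z ⟶ V⟦(1 : ℤ)⟧} (hT : Triangle.mk f g h ∈ distTriang T)
    (u : ⨁ k, GrM (M.tensorRight W) k)
    (hu : hmap (N ◁ g) (isLinear_wL M g) u = 0) :
    ∃ u', hmap (N ◁ f) (isLinear_wL M f) u' = u := by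
  classical
  have h1 : ∀ k, ∃ z : (stdEven T).S k ⟶ N ⊗ V, z ≫ (N ◁ f) = cM (M.tensorRight W) k u := by
    intro k
    have h2 : cM (M.tensorRight W) k u ≫ (N ◁ g) = 0 := by
      rw [← cM_hmap _ (isLinear_wL M g), hu, map_zero]
    obtain ⟨z, hz⟩ := Triangle.coyoneda_exact₂ _ (dist_whiskerLeft N hT) _ h2
    exact ⟨z, hz.symm⟩
  choose z hz using h1
  refine ⟨∑ k ∈ DFinsupp.support u, ofM (M.tensorRight V) k (z k), ?_⟩
  rw [map_sum]
  conv_rhs => rw [← DirectSum.sum_support_of u]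
  refine Finset.sum_congr rfl fun k _ => ?_
  rw [hmap_of, hz]
  rfl

/-- the image of `ofM` -/
theorem opH_free (M : ModStr R N) {V : T} {d : ℤ} (f : V ⊗ (stdEven T).S d ⟶ V)
    (u : ⨁ k, GrM (M.tensorRight V) k) :
    opH M ((FM.free R).map f) u = hmap (N ◁ f) (isLinear_wL M f) (sgH M V d u) := by
  have h1 : ∀ u, tmap M ((FM.free R).map f) u = hmap (N ◁ f) (isLinear_wL M f) u := by
    intro u
    induction u using ind with
    | h0 => rw [map_zero, map_zero]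
    | h1 k y => rw [tmap_of, hmap_of, tm_free]
    | h2 x y hx hy => rw [map_add, map_add, hx, hy]
  rw [opH, LinearMap.comp_apply, h1]

/-- **the step** -/
theorem step (M : ModStr R N) {V W : T} {d : ℤ} (hd : 0 < d)
    {f : V ⊗ (stdEven T).S d ⟶ V} {g : V ⟶ W} {h : W ⟶ (V ⊗ (stdEven T).S d)⟦(1 : ℤ)⟧}
    (hT : Triangle.mk f g h ∈ distTriang T) {w : (stdEven T).S d ⟶ R} {e : ℤ}
    {x : (stdEven T).S e ⟶ R} {i : ℕ}
    (hw : HRing.of (stdEven T) R d w = HRing.of (stdEven T) R e x ^ i)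
    (hδ : Gh ((FM.free R).map f - wm V w)) {K : ℕ} (hGhL : GhL R K V) {K0 : ℤ}
    (hK : ∀ k < K0, ∀ y : (stdEven T).S k ⟶ N ⊗ V, y = 0)
    {s : Set (HRing (stdEven T) R)} (hsf : s.Finite)
    (hs : ∀ h ∈ s, ∃ (m : ℤ) (a : (stdEven T).S m ⟶ R), h = HRing.of (stdEven T) R m a)
    (hB : (⊤ : Submodule (A s) (⨁ k, GrM (M.tensorRight W) k)).FG) :
    (⊤ : Submodule (A (insert (HRing.of (stdEven T) R e x) s))
      (⨁ k, GrM (M.tensorRight V) k)).FG := by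
  obtain ⟨Z, hZ, hgen⟩ := exists_gen hsf (hmap (N ◁ g) (isLinear_wL M g)) hB
  have hN := opH_pow_eq_zero M (itD_eq_zero hδ hGhL)
  rw [opH_sub, opH_wm, hw] at hN
  refine nak (G := GrM (M.tensorRight V)) ?_ (homg_mulH _ x) hd (homg_opH M _) ?_ hN
    (K := K0) hK hZ ?_
  · intro h hh
    obtain ⟨m, a, rfl⟩ := hs h hh
    exact ⟨m, homg_mulH _ a⟩
  · rw [← hw]
    exact homg_mulH _ w
  · intro u
    obtain ⟨a, ha, hu⟩ := hgen u
    obtain ⟨u₁, hu₁⟩ := exact_hmap M hT (u - a) hu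
    obtain ⟨u₂, rfl⟩ := sgH_surj M V d u₁
    refine ⟨a, ha, u₂, ?_⟩
    rw [← hu₁, opH_free]

/-- the last step -/
theorem step_zero (M : ModStr R N) {W : T} {q : ℤ} {g : 𝟙_ T ⟶ W} {h : W ⟶ (𝟙_ T)⟦(1 : ℤ)⟧}
    (hT : Triangle.mk (q • 𝟙 (𝟙_ T)) g h ∈ distTriang T)
    {s : Set (HRing (stdEven T) R)} (hsf : s.Finite)
    (hB : (⊤ : Submodule (A s) (⨁ k, GrM (M.tensorRight W) k)).FG) :
    ∃ Z : Set (Σ k, GrM (M.tensorRight (𝟙_ T)) k), Z.Finite ∧
      ∀ u : ⨁ k, GrM (M.tensorRight (𝟙_ T)) k,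
        ∃ a ∈ Submodule.span (A s) (toM _ '' Z), ∃ u', u - a = q • u' := by
  obtain ⟨Z, hZ, hgen⟩ := exists_gen hsf (hmap (N ◁ g) (isLinear_wL M g)) hB
  refine ⟨Z, hZ, fun u => ?_⟩
  obtain ⟨a, ha, hu⟩ := hgen u
  obtain ⟨u₁, hu₁⟩ := exact_hmap M hT (u - a) hu
  refine ⟨a, ha, u₁, ?_⟩
  rw [← hu₁]
  refine ext_cM fun k => ?_
  rw [cM_hmap, map_zsmul]
  have h1 : (tensorLeft N).map (q • 𝟙 (𝟙_ T)) = q • (tensorLeft N).map (𝟙 (𝟙_ T)) :=
    Functor.map_zsmul _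
  rw [(tensorLeft N).map_id] at h1
  have h2 : N ◁ (q • 𝟙 (𝟙_ T)) = q • 𝟙 (N ⊗ 𝟙_ T) := h1
  rw [h2, Preadditive.comp_zsmul, Category.comp_id]

end Vale.Agent.P221.H395.Fp
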