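import Vale.Agent.P221.St.FP
import Vale.Agent.P221.H395.Fp.Step
import Vale.Agent.P221.H395.Fp.Bdd
import Vale.Agent.P257.H702.BPRing

/-!
# P221 (FP): the induction over generalised Moore spectra of the statement layer

* `cls_pow` : the class of `φ (x ^ i)`;
* `gh_of_inducesMul` : a self map which induces the multiplication by `w`, as a ghost;
* `main_ind` : the induction.
-/

open CategoryTheory MonoidalCategory OnePoint Limits Pretriangulated MonObj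
open Vale.Agent.P251.St Vale.Agent.P251.St.SHCat Vale.Agent.P257.St Vale.Agent.P251.T
  Vale.Agent.P251.M Vale.Agent.P251.S Vale.Agent.P257.H702 Vale.Agent.P221.St
open Vale.Agent.P251.M.EvenSpheres

set_option linter.unusedSectionVars false

open DirectSum

noncomputable section

namespace Vale.Agent.P221.H395.Fp

variable {T : SHCat} {S : Susp T} {R : RingSp T} {p : ℕ}

/-- powers -/
theorem cls_pow {o : Oriented S R} {φ : GHom S p R} (hφ : IsPTyp p o φ) {a : ℕ} (x : VPoly p a) :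
    ∀ (i k : ℕ) (_ : k = i * a) (z : VPoly p k),
      (z : MvPolynomial ℕ ℤ) = (x : MvPolynomial ℕ ℤ) ^ i →
      cls S R k (φ.val z) = cls S R a (φ.val x) ^ i
  | 0, k, hk, z, hz => by
    obtain rfl : k = 0 := by rw [hk, Nat.zero_mul]
    rw [pow_zero]
    exact cls_one fun j hj => hφ.one z j (by rw [hz, pow_zero]) hj
  | i + 1, k, hk, z, hz => by
    obtain rfl : k = i * a + a := by rw [hk]; ring
    have h1 : (x : MvPolynomial ℕ ℤ) ^ i ∈ MvPolynomial.weightedHomogeneousSubmodule ℤ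
        (fun i : ℕ => p ^ (i + 1) - 1) (i * a) := by
      have h2 := (show MvPolynomial.IsWeightedHomogeneous (fun i : ℕ => p ^ (i + 1) - 1)
        (x : MvPolynomial ℕ ℤ) a from x.2).pow i
      rw [smul_eq_mul] at h2
      exact h2
    have h3 := hφ.mul (i * a) a ⟨_, h1⟩ x z (by rw [hz, pow_succ])
    rw [cls_mul h3, cls_pow hφ x i (i * a) rfl ⟨_, h1⟩ rfl, pow_succ]

/-- the library form of a self map -/
def selfMap {k : ℕ} {V : T.C} (f : Hom (ten (S.obj (Cn k)) V) V) :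
    V ⊗ (stdEven T.C).S k ⟶ V :=
  V ◁ (isoE S k).inv ≫ (β_ V (S.obj (Cn k))).hom ≫ f

theorem gh_of_inducesMul {k : ℕ} {V : T.C} {w : Hom (S.obj (Cn k)) R.obj}
    {f : Hom (ten (S.obj (Cn k)) V) V} (h : InducesMul w f) :
    Gh ((FM.free R.obj).map (selfMap f) - wm V ((isoE S k).inv ≫ w)) := by
  intro m y
  rw [Preadditive.comp_sub, sub_eq_zero]
  let y₀ : (𝟙_ T.C)⟦m⟧ ⟶ R.obj ⊗ (V ⊗ (stdEven T.C).S k) := FM.Hom.hom y
  have h1 := h m (y₀ ≫ R.obj ◁ (V ◁ (isoE S k).inv ≫ (β_ V (S.obj (Cn k))).hom))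
  apply FM.hom_ext
  change y₀ ≫ FM.bind (selfMap f ≫ FM.unit R.obj V) =
    y₀ ≫ FM.bind (V ◁ ((isoE S k).inv ≫ w) ≫ (β_ V R.obj).hom)
  rw [FM.bind_comp_unit]
  change (y₀ ≫ R.obj ◁ (V ◁ (isoE S k).inv ≫ (β_ V (S.obj (Cn k))).hom)) ≫ R.obj ◁ f =
    (y₀ ≫ R.obj ◁ (V ◁ (isoE S k).inv ≫ (β_ V (S.obj (Cn k))).hom)) ≫
      (α_ R.obj (S.obj (Cn k)) V).inv ≫ ((𝟙 R.obj ⊗ₘ w) ≫ μ[R.obj]) ▷ V at h1
  have h2 : R.obj ◁ selfMap f =
      R.obj ◁ (V ◁ (isoE S k).inv ≫ (β_ V (S.obj (Cn k))).hom) ≫ R.obj ◁ f := by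
    rw [← MonoidalCategory.whiskerLeft_comp, Category.assoc]
    rfl
  rw [h2, ← Category.assoc, h1, FM.bind, Category.assoc]
  congr 1
  rw [id_tensorHom]
  simp only [MonoidalCategory.whiskerLeft_comp, comp_whiskerRight, Category.assoc]
  rw [← associator_inv_naturality_middle_assoc]
  congr 1
  rw [← MonoidalCategory.whiskerLeft_comp_assoc, ← MonoidalCategory.whiskerLeft_comp_assoc,
    BraidedCategory.braiding_naturality_right]

/-- the triangle of a self map -/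
theorem selfMap_dist {k : ℕ} {V W : T.C} {f : Hom (ten (S.obj (Cn k)) V) V} {g : Hom V W}
    {h : Hom W (sus (ten (S.obj (Cn k)) V))} (hT : Dist f g h) :
    ∃ h' : W ⟶ (V ⊗ (stdEven T.C).S k)⟦(1 : ℤ)⟧,
      Triangle.mk (selfMap f) g h' ∈ distTriang T.C := by
  let e : V ⊗ (stdEven T.C).S k ≅ S.obj (Cn k) ⊗ V :=
    whiskerLeftIso V (isoE S k).symm ≪≫ β_ V (S.obj (Cn k))
  refine ⟨h ≫ e.inv⟦(1 : ℤ)⟧', ?_⟩
  refine isomorphic_distinguished _ hT _ (Triangle.isoMk _ _ e (Iso.refl _) (Iso.refl _) ?_ ?_ ?_)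
  · change selfMap f ≫ 𝟙 V = e.hom ≫ f
    rw [Category.comp_id]
    exact (Category.assoc _ _ _).symm
  · change g ≫ 𝟙 W = 𝟙 V ≫ g
    rw [Category.comp_id, Category.id_comp]
  · change (h ≫ e.inv⟦(1 : ℤ)⟧') ≫ e.hom⟦(1 : ℤ)⟧' = 𝟙 W ≫ h
    rw [Category.assoc, ← Functor.map_comp, Iso.inv_hom_id, CategoryTheory.Functor.map_id,
      Category.comp_id, Category.id_comp]

/-- `v_j` in the homotopy ring -/
def vcl (φ : GHom S p R) (j : ℕ) : HRing (stdEven T.C) R.obj :=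
  cls S R (p ^ j - 1) (hazV φ j)

/-- `{v_j, …, v_n}` -/
def vset (φ : GHom S p R) (j n : ℕ) : Set (HRing (stdEven T.C) R.obj) :=
  vcl φ '' Set.Icc j n

theorem vset_succ (φ : GHom S p R) {j n : ℕ} (h : j ≤ n) :
    vset φ j n = insert (vcl φ j) (vset φ (j + 1) n) := by
  rw [vset, vset, ← Set.image_insert_eq]
  congr 1
  ext l
  simp only [Set.mem_Icc, Set.mem_insert_iff]
  omega

theorem vset_finite (φ : GHom S p R) (j n : ℕ) : (vset φ j n).Finite :=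
  (Set.finite_Icc j n).image _

theorem vset_of (φ : GHom S p R) (j n : ℕ) : ∀ h ∈ vset φ j n,
    ∃ (m : ℤ) (a : (stdEven T.C).S m ⟶ R.obj), h = HRing.of (stdEven T.C) R.obj m a := by
  rintro _ ⟨l, -, rfl⟩
  exact ⟨_, _, rfl⟩

theorem vEl_ne_zero (hp : p.Prime) (j : ℕ) : vEl p j ≠ 0 := by
  rcases j with _ | j
  · change (MvPolynomial.C (p : ℤ) : MvPolynomial ℕ ℤ) ≠ 0
    rw [Ne, MvPolynomial.C_eq_zero]
    exact_mod_cast hp.ne_zero
  · exact MvPolynomial.X_ne_zero _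

theorem degree_eq (hp : p.Prime) {j k i : ℕ} (w : VPoly p k)
    (hw : (w : MvPolynomial ℕ ℤ) = vEl p j ^ i) : k = i * (p ^ j - 1) := by
  have h1 : MvPolynomial.IsWeightedHomogeneous (fun i : ℕ => p ^ (i + 1) - 1)
      (vEl p j ^ i) k := by
    rw [← hw]
    exact w.2
  have h2 : MvPolynomial.IsWeightedHomogeneous (fun i : ℕ => p ^ (i + 1) - 1)
      (vEl p j ^ i) (i • (p ^ j - 1)) :=
    (show MvPolynomial.IsWeightedHomogeneous (fun i : ℕ => p ^ (i + 1) - 1)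
      (vEl p j) (p ^ j - 1) from vEl_mem p j).pow i
  exact MvPolynomial.IsWeightedHomogeneous.inj_right (pow_ne_zero _ (vEl_ne_zero hp j)) h1 h2

/-- **the induction** -/
theorem main_ind (hp : p.Prime) {o : Oriented S R} {φ : GHom S p R} (hφ : IsPTyp p o φ) {j : ℕ}
    {V : T.C} (hV : IsGenMoore φ j V) :
    (∃ K, GhL R.obj K V) ∧ (∀ N : T.C, BBd N → BBd (N ⊗ V)) ∧ 1 ≤ j ∧
    ∀ n, j ≤ n + 1 → ∀ (N : T.C) (M : ModStr R.obj N), BBd N →
      (⊤ : Submodule (A (vset φ j n)) (⨁ k, GrM (M.tensorRight V) k)).FG →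
      ∃ (q : ℤ), (p : ℤ) ∣ q ∧ ∃ Z : Set (Σ k, GrM (M.tensorRight (𝟙_ T.C)) k), Z.Finite ∧
        ∀ u : ⨁ k, GrM (M.tensorRight (𝟙_ T.C)) k,
          ∃ a ∈ Submodule.span (A (vset φ 1 n)) (toM _ '' Z), ∃ u', u - a = q • u' := by
  induction hV with
  | @base i V g h hi hT =>
    refine ⟨⟨_, GhL.ext₃ hT GhL.unit GhL.unit⟩, ?_, le_refl _, ?_⟩
    · intro N hN
      exact BBd.whisker hT (hN.of_iso (ρ_ N).symm) (hN.of_iso (ρ_ N).symm)
    · intro n _ N M _ hfg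
      exact ⟨(p : ℤ) ^ i, dvd_pow_self _ hi.ne', step_zero M hT (vset_finite φ 1 n) hfg⟩
  | @step j k i V W f g h w hV hi hw hf hT ih =>
    obtain ⟨⟨K, hK⟩, hbd, hj, ih⟩ := ih
    obtain ⟨h', hT'⟩ := selfMap_dist hT
    refine ⟨⟨_, GhL.ext₃ hT' (hK.tensS k) hK⟩, ?_, by omega, ?_⟩
    · intro N hN
      exact BBd.whisker hT' ((hbd N hN).tensS k) (hbd N hN)
    · intro n hn N M hN hfg
      have hjn : j ≤ n := by omega
      refine ih n (by omega) N M hN ?_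
      rw [vset_succ φ hjn]
      obtain ⟨K0, hK0⟩ := (hbd N hN).even
      have hk := degree_eq hp w hw
      have hpj : 1 < p ^ j := Nat.one_lt_pow (by omega) hp.one_lt
      have hd : (0 : ℤ) < (k : ℤ) := by
        have h1 : 0 < k := by
          rw [hk]
          exact Nat.mul_pos hi (by omega)
        exact_mod_cast h1
      have hw' : HRing.of (stdEven T.C) R.obj k ((isoE S k).inv ≫ φ.val w) = vcl φ j ^ i :=
        cls_pow hφ ⟨vEl p j, vEl_mem p j⟩ i k hk w hw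
      exact step M hd hT' hw' (gh_of_inducesMul hf) hK hK0 (vset_finite φ (j + 1) n)
        (vset_of φ (j + 1) n) hfg

end Vale.Agent.P221.H395.Fp
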