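import Vale.Agent.P221.H395.Fp.Alg
import Vale.Agent.P221.H395.Fp.Kl
import Vale.Agent.P251.M.EvenRing

/-!
# P221 (FP): operators on the homotopy of `N ⊗ V`

`N` is a homotopy module over the commutative ring spectrum `R`; `N ⊗ A` is an `R`-module, and a
map `g : A ⊗ S^{2d} ⟶ B` of free `R`-modules induces an operator `π_{2*} (N ⊗ A) ⟶ π_{2*} (N ⊗ B)`
of degree `2 d`.

* `GrM M`, `⨁ k, GrM M k` : the homotopy module of `M`, a module over `HRing`;
* `hmap` : the linear map of a linear map;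
* `sgH` : the suspension isomorphism;
* `wm` : the multiplication by `w ∈ π_{2d} R`.
-/

open CategoryTheory MonoidalCategory Limits Pretriangulated MonObj
open Vale.Agent.P251.T Vale.Agent.P251.M Vale.Agent.P251.S
open Vale.Agent.P251.M.EvenSpheres

universe v u

set_option linter.unusedSectionVars false

open DirectSum

namespace Vale.Agent.P221.H395.Fp

section mon

variable {T : Type u} [Category.{v} T] [MonoidalCategory T] [SymmetricCategory T]
variable {R : T} [MonObj R] [IsCommMonObj R] {N : T} (M : ModStr R N)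

/-- the left and the right action commute -/
theorem act_ract : (R ◁ ract M) ≫ M.act = (α_ R N R).inv ≫ (M.act ▷ R) ≫ ract M := by
  rw [ract, BraidedCategory.braiding_naturality_left_assoc,
    BraidedCategory.braiding_tensor_left_hom]
  simp only [Category.assoc, Iso.inv_hom_id_assoc, MonoidalCategory.whiskerLeft_comp]
  have h1 := M.mul_act
  have h2 : R ◁ M.act ≫ M.act = (α_ R R N).inv ≫ μ[R] ▷ N ≫ M.act := by
    rw [h1, Iso.inv_hom_id_assoc]
  rw [h2, Iso.hom_inv_id_assoc, ← comp_whiskerRight_assoc, IsCommMonObj.mul_comm]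

/-- `N ⊗_R g` -/
def tm {A B : T} (g : (FM.free R).obj A ⟶ (FM.free R).obj B) : N ⊗ A ⟶ N ⊗ B :=
  (tenFunctor M).map g

theorem tm_eq {A B : T} (g : (FM.free R).obj A ⟶ (FM.free R).obj B) :
    tm M g = N ◁ (show A ⟶ R ⊗ B from FM.Hom.hom g) ≫ (α_ N R B).inv ≫ ract M ▷ B := rfl

theorem tm_id (A : T) : tm M (𝟙 ((FM.free R).obj A)) = 𝟙 (N ⊗ A) := (tenFunctor M).map_id _

theorem tm_comp {A B C : T} (g : (FM.free R).obj A ⟶ (FM.free R).obj B)
    (h : (FM.free R).obj B ⟶ (FM.free R).obj C) : tm M (g ≫ h) = tm M g ≫ tm M h :=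
  (tenFunctor M).map_comp _ _

theorem tm_free {A B : T} (f : A ⟶ B) : tm M ((FM.free R).map f) = N ◁ f :=
  tenFunctor_map_free M f

/-- `N ⊗_R g` is linear -/
theorem isLinear_tm {A B : T} (g : (FM.free R).obj A ⟶ (FM.free R).obj B) :
    (M.tensorRight A).IsLinear (M.tensorRight B) (tm M g) := by
  rw [tm_eq]
  change ((α_ R N A).inv ≫ (M.act ▷ A)) ≫
      (N ◁ (show A ⟶ R ⊗ B from FM.Hom.hom g) ≫ (α_ N R B).inv ≫ ract M ▷ B) =
    (R ◁ (N ◁ (show A ⟶ R ⊗ B from FM.Hom.hom g) ≫ (α_ N R B).inv ≫ ract M ▷ B)) ≫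
      ((α_ R N B).inv ≫ (M.act ▷ B))
  generalize (show A ⟶ R ⊗ B from FM.Hom.hom g) = γ
  have h1 : (R ◁ (ract M ▷ B)) ≫ (α_ R N B).inv ≫ (M.act ▷ B) =
      (α_ R (N ⊗ R) B).inv ≫ ((R ◁ ract M) ≫ M.act) ▷ B := by
    simp
  simp only [MonoidalCategory.whiskerLeft_comp, Category.assoc]
  rw [h1, act_ract, ← whisker_exchange_assoc]
  simp

/-- `(N ⊗_R g) ⊗ W = N ⊗_R (g ⊗ W)` -/
@[reassoc]
theorem tm_whiskerRight {A B : T} (g : (FM.free R).obj A ⟶ (FM.free R).obj B) (W : T) :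
    (tm M g) ▷ W ≫ (α_ N B W).hom = (α_ N A W).hom ≫ tm M (wr g W) := by
  have h0 : (show A ⊗ W ⟶ R ⊗ (B ⊗ W) from FM.Hom.hom (wr g W)) =
      (show A ⟶ R ⊗ B from FM.Hom.hom g) ▷ W ≫ (α_ R B W).hom := FM.whiskerRight_hom' _ _
  rw [tm_eq, tm_eq, h0]
  generalize (show A ⟶ R ⊗ B from FM.Hom.hom g) = γ
  simp

/-- the multiplication by `w : P ⟶ R` -/
def wm (A : T) {P : T} (w : P ⟶ R) : (FM.free R).obj (A ⊗ P) ⟶ (FM.free R).obj A :=
  ⟨A ◁ w ≫ (β_ A R).hom⟩

theorem tm_wm (A : T) {P : T} (w : P ⟶ R) :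
    tm M (wm A w) =
      (α_ N A P).inv ≫ ((N ⊗ A) ◁ w) ≫ (β_ (N ⊗ A) R).hom ≫ (M.tensorRight A).act := by
  change N ◁ (A ◁ w ≫ (β_ A R).hom) ≫ (α_ N R A).inv ≫ ((β_ N R).hom ≫ M.act) ▷ A =
    (α_ N A P).inv ≫ ((N ⊗ A) ◁ w) ≫ (β_ (N ⊗ A) R).hom ≫ (α_ R N A).inv ≫ (M.act ▷ A)
  rw [BraidedCategory.braiding_tensor_left_hom]
  simp only [MonoidalCategory.whiskerLeft_comp, comp_whiskerRight, Category.assoc,
    Iso.hom_inv_id_assoc, tensor_whiskerLeft, Iso.inv_hom_id_assoc]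

end mon

section sg

variable {T : Type u} [Category.{v} T] [MonoidalCategory T] [SymmetricCategory T]
  {E : EvenSpheres T}

/-- the suspension `π_{2k} (N ⊗ A) ⟶ π_{2(k+d)} (N ⊗ (A ⊗ S^{2d}))` -/
noncomputable def sg {N A : T} {k d l : ℤ} (h : k + d = l) (y : E.S k ⟶ N ⊗ A) :
    E.S l ⟶ N ⊗ (A ⊗ E.S d) :=
  E.ext h y (𝟙 (E.S d)) ≫ (α_ N A (E.S d)).hom

theorem sg_surj {N A : T} {k d l : ℤ} (h : k + d = l) (z : E.S l ⟶ N ⊗ (A ⊗ E.S d)) :
    ∃ y : E.S k ⟶ N ⊗ A, sg h y = z := by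
  have h1 : IsInv (E.S d) :=
    IsInv.of_inverse (L' := E.S (-d)) (E.mu d (-d) 0 (by ring) ≪≫ E.zero.symm)
  have h2 : (tensorRight (E.S d)).IsEquivalence :=
    Functor.isEquivalence_of_iso
      (NatIso.ofComponents (fun X => β_ (E.S d) X) : tensorLeft (E.S d) ≅ tensorRight (E.S d))
  obtain ⟨y, hy⟩ := (tensorRight (E.S d)).map_surjective
    ((E.mu k d l h).hom ≫ z ≫ (α_ N A (E.S d)).inv)
  refine ⟨y, ?_⟩
  change y ▷ E.S d = _ at hy
  rw [sg, EvenSpheres.ext, tensorHom_id, hy]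
  simp

variable {R : T} [MonObj R] [IsCommMonObj R] {N : T} (M : ModStr R N)

/-- naturality of the suspension -/
theorem sg_comp {A B : T} {k d l : ℤ} (h : k + d = l) (y : E.S k ⟶ N ⊗ A)
    (g : (FM.free R).obj A ⟶ (FM.free R).obj B) :
    sg h (y ≫ tm M g) = sg h y ≫ tm M (wr g (E.S d)) := by
  rw [sg, sg, ext_comp_left, Category.assoc, Category.assoc, tm_whiskerRight]

/-- the multiplication by `w` -/
theorem sg_wm {A : T} {k d l : ℤ} (h : k + d = l) (h' : d + k = l) (y : E.S k ⟶ N ⊗ A)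
    (w : E.S d ⟶ R) :
    sg h y ≫ tm M (wm A w) = gsmul (M.tensorRight A) h' w y := by
  rw [tm_wm, sg, gsmul, Category.assoc, Iso.hom_inv_id_assoc, ← Category.assoc,
    ← ext_comp_right, Category.id_comp, ← ext_comm h h', Category.assoc]

/-- linearity of the suspension -/
theorem gsmul_sg {A : T} {m k d l mk ml : ℤ} (h : k + d = l) (h1 : m + k = mk)
    (h2 : m + l = ml) (h3 : mk + d = ml) (a : E.S m ⟶ R) (y : E.S k ⟶ N ⊗ A) :
    sg h3 (gsmul (M.tensorRight A) h1 a y) = gsmul (M.tensorRight (A ⊗ E.S d)) h2 a (sg h y) := by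
  rw [sg, sg, gsmul, gsmul, ext_comp_left, ext_comp_right, ← ext_assoc h1 h3 h h2]
  simp only [Category.assoc]
  congr 1
  change ((α_ R N A).inv ≫ (M.act ▷ A)) ▷ E.S d ≫ (α_ N A (E.S d)).hom =
    (α_ R (N ⊗ A) (E.S d)).hom ≫ R ◁ (α_ N A (E.S d)).hom ≫
      (α_ R N (A ⊗ E.S d)).inv ≫ (M.act ▷ (A ⊗ E.S d))
  simp

end sg

section H

variable {T : Type u} [Category.{v} T] [Preadditive T] [HasZeroObject T]
    [HasShift T ℤ] [∀ n : ℤ, (shiftFunctor T n).Additive] [Pretriangulated T]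
    [MonoidalCategory T] [SymmetricCategory T] [TensorTriangulated T]
variable {R : T} [MonObj R] [IsCommMonObj R] {N : T}

/-- the homotopy groups of the module `M` -/
def GrM (_M : ModStr R N) (k : ℤ) : Type v := (stdEven T).S k ⟶ N

noncomputable instance (M : ModStr R N) (k : ℤ) : AddCommGroup (GrM M k) :=
  inferInstanceAs (AddCommGroup ((stdEven T).S k ⟶ N))

noncomputable instance (M : ModStr R N) :
    Module (HRing (stdEven T) R) (⨁ k, GrM M k) :=
  hModule (E := stdEven T) M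

/-- the inclusion of the homogeneous elements -/
noncomputable def ofM (M : ModStr R N) (k : ℤ) : ((stdEven T).S k ⟶ N) →+ ⨁ k, GrM M k :=
  DirectSum.of (GrM M) k

/-- the components -/
noncomputable def cM (M : ModStr R N) (k : ℤ) : (⨁ k, GrM M k) →+ ((stdEven T).S k ⟶ N) :=
  DFinsupp.evalAddMonoidHom k

theorem cM_ofM (M : ModStr R N) (k : ℤ) (y : (stdEven T).S k ⟶ N) : cM M k (ofM M k y) = y :=
  DirectSum.of_eq_same (β := GrM M) k y

theorem cM_ofM_ne (M : ModStr R N) {k l : ℤ} (h : l ≠ k) (y : (stdEven T).S l ⟶ N) :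
    cM M k (ofM M l y) = 0 :=
  DirectSum.of_eq_of_ne (β := GrM M) l k y (Ne.symm h)

theorem ofM_cM (M : ModStr R N) (k : ℤ) (u : ⨁ k, GrM M k) : ofM M k (cM M k u) = pr _ k u := rfl

theorem ext_cM {M : ModStr R N} {u u' : ⨁ k, GrM M k} (h : ∀ k, cM M k u = cM M k u') : u = u' :=
  DFinsupp.ext h

theorem ind {M : ModStr R N} {P : (⨁ k, GrM M k) → Prop} (u : ⨁ k, GrM M k) (h0 : P 0)
    (h1 : ∀ (k : ℤ) (y : (stdEven T).S k ⟶ N), P (ofM M k y)) (h2 : ∀ x y, P x → P y → P (x + y)) :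
    P u :=
  DirectSum.induction_on u h0 h1 h2

theorem of_smul_ofM (M : ModStr R N) {m n p : ℤ} (h : m + n = p) (a : (stdEven T).S m ⟶ R)
    (x : (stdEven T).S n ⟶ N) :
    (HRing.of (stdEven T) R m a) • (ofM M n x) = ofM M p (gsmul M h a x) :=
  of_smul_of M h a x

theorem homg_mulH (M : ModStr R N) {m : ℤ} (a : (stdEven T).S m ⟶ R) :
    Homg (mulH (GrM M) (HRing.of (stdEven T) R m a)) m := fun _ y =>
  ⟨gsmul M rfl a y, of_smul_ofM M rfl a y⟩

theorem hom_ext_of {N' : T} {M : ModStr R N} {M' : ModStr R N'}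
    {f g : (⨁ k, GrM M k) →ₗ[HRing (stdEven T) R] ⨁ k, GrM M' k}
    (h : ∀ (k : ℤ) (y : (stdEven T).S k ⟶ N), f (ofM M k y) = g (ofM M k y)) : f = g := by
  refine LinearMap.ext fun u => ?_
  induction u using ind with
  | h0 => rw [map_zero, map_zero]
  | h1 k y => exact h k y
  | h2 x y hx hy => rw [map_add, map_add, hx, hy]

/-- linear maps from additive maps -/
noncomputable def mkLin {N' : T} (M : ModStr R N) (M' : ModStr R N')
    (ψ : ∀ k, ((stdEven T).S k ⟶ N) →+ ⨁ k, GrM M' k)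
    (hψ : ∀ (m k : ℤ) (a : (stdEven T).S m ⟶ R) (y : (stdEven T).S k ⟶ N),
      ψ (m + k) (gsmul M rfl a y) = (HRing.of (stdEven T) R m a) • ψ k y) :
    (⨁ k, GrM M k) →ₗ[HRing (stdEven T) R] ⨁ k, GrM M' k where
  toFun := DirectSum.toAddMonoid (β := GrM M) ψ
  map_add' := map_add _
  map_smul' r u := by
    rw [RingHom.id_apply]
    induction r using DirectSum.induction_on with
    | zero => rw [zero_smul, zero_smul, map_zero]
    | of m a =>
      induction u using ind with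
      | h0 => rw [smul_zero, map_zero, smul_zero]
      | h1 k y =>
        have h1 : DirectSum.toAddMonoid (β := GrM M) ψ (ofM M k y) = ψ k y :=
          DirectSum.toAddMonoid_of (β := GrM M) ψ k y
        rw [h1, ← hψ m k a y]
        refine (congrArg _ (of_smul_ofM M rfl a y)).trans ?_
        exact DirectSum.toAddMonoid_of (β := GrM M) ψ (m + k) _
      | h2 x y hx hy => rw [smul_add, map_add, map_add, smul_add, hx, hy]
    | add x y hx hy => rw [add_smul, map_add, hx, hy, add_smul]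

theorem mkLin_of {N' : T} (M : ModStr R N) (M' : ModStr R N')
    (ψ : ∀ k, ((stdEven T).S k ⟶ N) →+ ⨁ k, GrM M' k) (hψ) (k : ℤ)
    (y : (stdEven T).S k ⟶ N) : mkLin M M' ψ hψ (ofM M k y) = ψ k y :=
  DirectSum.toAddMonoid_of (β := GrM M) ψ k y

/-- the map of homotopy modules of a linear map -/
noncomputable def hmap {N' : T} {M : ModStr R N} {M' : ModStr R N'} (f : N ⟶ N')
    (hf : M.IsLinear M' f) : (⨁ k, GrM M k) →ₗ[HRing (stdEven T) R] ⨁ k, GrM M' k :=
  mkLin M M' (fun k => (ofM M' k).comp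
    { toFun := fun y : (stdEven T).S k ⟶ N => y ≫ f
      map_zero' := zero_comp
      map_add' := fun _ _ => Preadditive.add_comp _ _ _ _ _ _ }) fun m k a y => by
    change ofM M' (m + k) (gsmul M rfl a y ≫ f) =
      (HRing.of (stdEven T) R m a) • (ofM M' k (y ≫ f))
    rw [of_smul_ofM M' rfl, gsmul_comp M M' hf]

theorem hmap_of {N' : T} {M : ModStr R N} {M' : ModStr R N'} (f : N ⟶ N')
    (hf : M.IsLinear M' f) (k : ℤ) (y : (stdEven T).S k ⟶ N) :
    hmap f hf (ofM M k y) = ofM M' k (y ≫ f) :=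
  mkLin_of _ _ _ _ _ _

/-- components -/
theorem cM_hmap {N' : T} {M : ModStr R N} {M' : ModStr R N'} (f : N ⟶ N')
    (hf : M.IsLinear M' f) (u : ⨁ k, GrM M k) (k : ℤ) :
    cM M' k (hmap f hf u) = cM M k u ≫ f := by
  induction u using ind with
  | h0 => rw [map_zero, map_zero, map_zero, zero_comp]
  | h1 l y =>
    rw [hmap_of]
    by_cases h : l = k
    · subst h
      rw [cM_ofM, cM_ofM]
    · rw [cM_ofM_ne _ h, cM_ofM_ne _ h, zero_comp]
  | h2 x y hx hy => rw [map_add, map_add, hx, hy, map_add, Preadditive.add_comp]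

/-- the suspension isomorphism -/
noncomputable def sgH (M : ModStr R N) (A : T) (d : ℤ) :
    (⨁ k, GrM (M.tensorRight A) k) →ₗ[HRing (stdEven T) R]
      ⨁ k, GrM (M.tensorRight (A ⊗ (stdEven T).S d)) k :=
  mkLin _ _ (fun k => (ofM (M.tensorRight (A ⊗ (stdEven T).S d)) (d + k)).comp
    { toFun := fun y : (stdEven T).S k ⟶ N ⊗ A => sg (add_comm k d) y
      map_zero' := by
        change (stdEven T).ext _ 0 _ ≫ _ = 0
        rw [ext_zero_left, zero_comp]
      map_add' := fun _ _ => by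
        change (stdEven T).ext _ (_ + _) _ ≫ _ = _
        rw [ext_add_left, Preadditive.add_comp]
        rfl }) fun m k a y => by
    change ofM (M.tensorRight (A ⊗ (stdEven T).S d)) (d + (m + k))
        (sg (add_comm _ _) (gsmul (M.tensorRight A) rfl a y)) =
      (HRing.of (stdEven T) R m a) •
        (ofM (M.tensorRight (A ⊗ (stdEven T).S d)) (d + k) (sg (add_comm k d) y))
    rw [of_smul_ofM _ (show m + (d + k) = d + (m + k) by ring),
      gsmul_sg M (add_comm k d) rfl]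

theorem sgH_of (M : ModStr R N) (A : T) (d k : ℤ) (y : (stdEven T).S k ⟶ N ⊗ A) :
    sgH M A d (ofM (M.tensorRight A) k y) =
      ofM (M.tensorRight (A ⊗ (stdEven T).S d)) (d + k) (sg (add_comm k d) y) :=
  mkLin_of _ _ _ _ _ _

theorem sgH_surj (M : ModStr R N) (A : T) (d : ℤ)
    (u : ⨁ k, GrM (M.tensorRight (A ⊗ (stdEven T).S d)) k) : ∃ u', sgH M A d u' = u := by
  induction u using ind with
  | h0 => exact ⟨0, map_zero _⟩
  | h1 l z =>
    obtain ⟨k, rfl⟩ : ∃ k, l = d + k := ⟨l - d, by ring⟩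
    obtain ⟨y, hy⟩ := sg_surj (add_comm k d) z
    exact ⟨ofM (M.tensorRight A) k y, (sgH_of M A d k y).trans (by rw [hy])⟩
  | h2 x y hx hy =>
    obtain ⟨x', rfl⟩ := hx
    obtain ⟨y', rfl⟩ := hy
    exact ⟨x' + y', map_add _ _ _⟩

/-- the map induced by a map of free modules -/
noncomputable def tmap (M : ModStr R N) {A B : T} (g : (FM.free R).obj A ⟶ (FM.free R).obj B) :
    (⨁ k, GrM (M.tensorRight A) k) →ₗ[HRing (stdEven T) R] ⨁ k, GrM (M.tensorRight B) k :=
  hmap (tm M g) (isLinear_tm M g)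

theorem tmap_of (M : ModStr R N) {A B : T} (g : (FM.free R).obj A ⟶ (FM.free R).obj B) (k : ℤ)
    (y : (stdEven T).S k ⟶ N ⊗ A) :
    tmap M g (ofM (M.tensorRight A) k y) = ofM (M.tensorRight B) k (y ≫ tm M g) :=
  hmap_of _ _ k y

/-- the operator -/
noncomputable def opH (M : ModStr R N) {A B : T} {d : ℤ}
    (g : (FM.free R).obj (A ⊗ (stdEven T).S d) ⟶ (FM.free R).obj B) :
    (⨁ k, GrM (M.tensorRight A) k) →ₗ[HRing (stdEven T) R] ⨁ k, GrM (M.tensorRight B) k :=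
  (tmap M g).comp (sgH M A d)

theorem opH_of (M : ModStr R N) {A B : T} {d : ℤ}
    (g : (FM.free R).obj (A ⊗ (stdEven T).S d) ⟶ (FM.free R).obj B) (k : ℤ)
    (y : (stdEven T).S k ⟶ N ⊗ A) :
    opH M g (ofM (M.tensorRight A) k y) =
      ofM (M.tensorRight B) (d + k) (sg (add_comm k d) y ≫ tm M g) := by
  rw [opH, LinearMap.comp_apply, sgH_of, tmap_of]

theorem homg_opH (M : ModStr R N) {A : T} {d : ℤ}
    (g : (FM.free R).obj (A ⊗ (stdEven T).S d) ⟶ (FM.free R).obj A) :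
    Homg (opH M g).toAddMonoidHom d := fun k y => ⟨_, opH_of M g k y⟩

/-- the multiplication by `w` -/
theorem opH_wm (M : ModStr R N) {A : T} {d : ℤ} (w : (stdEven T).S d ⟶ R) :
    opH M (wm A w) = (HRing.of (stdEven T) R d w) •
      (1 : Module.End (HRing (stdEven T) R) (⨁ k, GrM (M.tensorRight A) k)) := by
  refine hom_ext_of fun k y => ?_
  rw [opH_of, sg_wm M (add_comm k d) rfl]
  exact (of_smul_ofM (M.tensorRight A) rfl w y).symm

theorem tm_sub (M : ModStr R N) {A B : T} (g g' : (FM.free R).obj A ⟶ (FM.free R).obj B) :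
    tm M (g - g') = tm M g - tm M g' := by
  have h1 : ∀ g g' : (FM.free R).obj A ⟶ (FM.free R).obj B,
      tm M (g + g') = tm M g + tm M g' := by
    intro g g'
    rw [tm_eq, tm_eq, tm_eq]
    change N ◁ ((show A ⟶ R ⊗ B from FM.Hom.hom g) + (show A ⟶ R ⊗ B from FM.Hom.hom g')) ≫ _ = _
    rw [MonoidalPreadditive.whiskerLeft_add, Preadditive.add_comp]
  have h2 := h1 (g - g') g'
  rw [sub_add_cancel] at h2
  rw [h2, add_sub_cancel_right]

theorem tm_zero (M : ModStr R N) (A B : T) :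
    tm M (0 : (FM.free R).obj A ⟶ (FM.free R).obj B) = 0 := by
  have h := tm_sub M (0 : (FM.free R).obj A ⟶ (FM.free R).obj B) 0
  rwa [sub_self, sub_self] at h

theorem opH_sub (M : ModStr R N) {A B : T} {d : ℤ}
    (g g' : (FM.free R).obj (A ⊗ (stdEven T).S d) ⟶ (FM.free R).obj B) :
    opH M (g - g') = opH M g - opH M g' := by
  refine hom_ext_of fun k y => ?_
  rw [LinearMap.sub_apply, opH_of, opH_of, opH_of, ← map_sub, tm_sub, Preadditive.comp_sub]

/-- the iterates of an operator -/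
theorem opH_pow (M : ModStr R N) {A : T} {d : ℤ}
    (δ : (FM.free R).obj (A ⊗ (stdEven T).S d) ⟶ (FM.free R).obj A) (K : ℕ) (k : ℤ)
    (y : (stdEven T).S k ⟶ N ⊗ A) :
    ∃ (l : ℤ) (z : (stdEven T).S l ⟶ N ⊗ itO A d K),
      ((opH M δ : Module.End (HRing (stdEven T) R) _) ^ K) (ofM (M.tensorRight A) k y) =
        ofM (M.tensorRight A) l (z ≫ tm M (itD δ K)) := by
  induction K with
  | zero =>
    refine ⟨k, y, ?_⟩
    rw [pow_zero]
    have h1 : y ≫ tm M (𝟙 ((FM.free R).obj A)) = y := by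
      rw [tm_id, Category.comp_id]
    exact congrArg (ofM (M.tensorRight A) k) h1.symm
  | succ K ih =>
    obtain ⟨l, z, hz⟩ := ih
    refine ⟨d + l, sg (add_comm l d) z, ?_⟩
    rw [pow_succ', Module.End.mul_apply, hz]
    refine (opH_of M δ l _).trans ?_
    refine congrArg (ofM (M.tensorRight A) (d + l)) ?_
    rw [sg_comp, Category.assoc, ← tm_comp]
    rfl

theorem opH_pow_eq_zero (M : ModStr R N) {A : T} {d : ℤ}
    {δ : (FM.free R).obj (A ⊗ (stdEven T).S d) ⟶ (FM.free R).obj A} {K : ℕ}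
    (h : itD δ K = 0) :
    (opH M δ : Module.End (HRing (stdEven T) R) (⨁ k, GrM (M.tensorRight A) k)) ^ K = 0 := by
  refine hom_ext_of fun k y => ?_
  obtain ⟨l, z, hz⟩ := opH_pow M δ K k y
  rw [hz, h, tm_zero, comp_zero, map_zero, LinearMap.zero_apply]

end H

end Vale.Agent.P221.H395.Fp
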